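import Vale.Agent.P011LX.Base

/-!
The fixed points of a twisted action in normal form and the maps over the fixed field.
-/

open Matrix

namespace Vale.Agent.P011LX

open Vale.Agent.P011L Vale.Agent.P011LD Vale.Agent.P011.D4 Vale.Agent.P011.E6 Vale.Agent.P011.MPQ
open Vale.Agent.P011.E6H (IsNormMap)

variable {k K : Type} [Field k] [Field K] [Algebra k K] {a b c : kˣ}
  {Θ : (Fin 3 × Fin 3 × Fin 3 → K) ≃ₗ[K] AlbL K a b c}

/-- The linear bijection. -/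
def cjE (Θ : (Fin 3 × Fin 3 × Fin 3 → K) ≃ₗ[K] AlbL K a b c) :
    GL (Fin 3 × Fin 3 × Fin 3) K ≃* (AlbL K a b c ≃ₗ[K] AlbL K a b c) :=
  GeneralLinearGroup.toLin.trans ((LinearMap.GeneralLinearGroup.congrLinearEquiv Θ).trans
    (LinearMap.GeneralLinearGroup.generalLinearEquiv K _))

theorem cjE_apply (g : GL (Fin 3 × Fin 3 × Fin 3) K) (x : AlbL K a b c) :
    cjE Θ g x = Θ (g.1 *ᵥ Θ.symm x) := rfl

theorem cj_eq (g : SE K) (x : AlbL K a b c) : cj Θ g x = cjE Θ g.1 x := rfl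

theorem cj_mul (g h : SE K) (x : AlbL K a b c) : cj Θ (g * h) x = cj Θ g (cj Θ h x) := by
  rw [cj_eq, Subgroup.coe_mul, map_mul]
  rfl

theorem cj_one (x : AlbL K a b c) : cj Θ 1 x = x := by
  rw [cj_eq, Subgroup.coe_one, map_one]
  rfl

theorem cub_cj (h : ∃ μ : K, μ ≠ 0 ∧ ∀ x, Alb.cub (Θ x) = μ * cub x) (g : SE K)
    (x : AlbL K a b c) : Alb.cub (cj Θ g x) = Alb.cub x := by
  obtain ⟨μ, -, h⟩ := h
  rw [cj, h, P011LT.mem_SE.1 g.2, ← h, LinearEquiv.apply_symm_apply]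

theorem exists_cj (h : ∃ μ : K, μ ≠ 0 ∧ ∀ x, Alb.cub (Θ x) = μ * cub x)
    (φ : AlbL K a b c ≃ₗ[K] AlbL K a b c) (hφ : ∀ x, Alb.cub (φ x) = Alb.cub x) :
    ∃ g : SE K, ∀ x, cj Θ g x = φ x := by
  obtain ⟨μ, h0, h⟩ := h
  obtain ⟨g, rfl⟩ := (cjE Θ).surjective φ
  refine ⟨⟨g, P011LT.mem_SE.2 fun x => mul_left_cancel₀ h0 ?_⟩, fun _ => rfl⟩
  have := hφ (Θ x)
  rwa [cjE_apply, LinearEquiv.symm_apply_apply, h, h] at this

section rel

variable {F : Type} [Field F] [Algebra k F] [Algebra F K]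

/-- The element `g` extends the map `f`. -/
def Rl (Θ : (Fin 3 × Fin 3 × Fin 3 → K) ≃ₗ[K] AlbL K a b c) (g : SE K)
    (f : Equiv.Perm (AlbL F a b c)) : Prop := ∀ x, cj Θ g (ja K x) = ja K (f x)

theorem eq_of_ja {g g' : SE K} (h : ∀ x : AlbL F a b c, cj Θ g (ja K x) = cj Θ g' (ja K x)) :
    g = g' := Subtype.ext ((cjE Θ).injective (LinearEquiv.toLinearMap_injective (ja_ext K h)))

theorem Rl.mul {g g' : SE K} {f f' : Equiv.Perm (AlbL F a b c)} (h : Rl Θ g f) (h' : Rl Θ g' f') :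
    Rl Θ (g * g') (f * f') := fun x => by rw [cj_mul, h', h]; rfl

theorem Rl.u1 {g : SE K} {f f' : Equiv.Perm (AlbL F a b c)} (h : Rl Θ g f) (h' : Rl Θ g f') :
    f = f' := Equiv.ext fun x => ja_inj K ((h x).symm.trans (h' x))

theorem Rl.u2 {g g' : SE K} {f : Equiv.Perm (AlbL F a b c)} (h : Rl Θ g f) (h' : Rl Θ g' f) :
    g = g' := eq_of_ja fun x => (h x).trans (h' x).symm

variable [IsScalarTower k F K]

theorem exists_rl [Infinite k] (h : ∃ μ : K, μ ≠ 0 ∧ ∀ x, Alb.cub (Θ x) = μ * cub x)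
    {f : Equiv.Perm (AlbL F a b c)} (hf : IsNormMap f) : ∃ g : SE K, Rl Θ g f := by
  have hf' := P011.E6H.isGrp_normMap.inv f f.symm f.apply_symm_apply f.symm_apply_apply hf
  obtain ⟨φ, h1⟩ := exists_ext K f hf.1 hf.2.1
  obtain ⟨ψ, h2⟩ := exists_ext K f.symm hf'.1 hf'.2.1
  obtain ⟨g, hg⟩ := exists_cj h (LinearEquiv.ofLinearMap φ ψ
    (ja_ext K (F := F) fun x => by simp [h1, h2]) (ja_ext K (F := F) fun x => by simp [h1, h2]))
    fun x => by
      by_contra hc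
      obtain ⟨_, ⟨y, rfl⟩, e⟩ := (ja_dn K (F := F)).den ((lp_cub.comp' φ).sub lp_cub)
        ⟨x, sub_ne_zero.2 hc⟩
      exact e (by rw [h1, ja_cub, ja_cub, hf.2.2, sub_self])
  exact ⟨g, fun x => (hg _).trans (h1 x)⟩

theorem exists_rl' (h : ∃ μ : K, μ ≠ 0 ∧ ∀ x, Alb.cub (Θ x) = μ * cub x) {S : Set (AlbL K a b c)}
    (hS : S = Set.range (ja K : AlbL F a b c → AlbL K a b c)) {g : SE K}
    (h1 : ∀ x ∈ S, cj Θ g x ∈ S) (h2 : ∀ x ∈ S, cj Θ g⁻¹ x ∈ S) :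
    ∃ f : Equiv.Perm (AlbL F a b c), IsNormMap f ∧ Rl Θ g f := by
  subst hS
  choose f hf using fun x : AlbL F a b c => h1 _ ⟨x, rfl⟩
  choose f' hf' using fun x : AlbL F a b c => h2 _ ⟨x, rfl⟩
  refine ⟨⟨f, f', fun x => ja_inj K ?_, fun x => ja_inj K ?_⟩,
    ⟨fun x y => ja_inj K ?_, fun t x => ja_inj K ?_, fun x => (algebraMap F K).injective ?_⟩,
    fun x => (hf x).symm⟩
  · rw [hf', hf, ← cj_mul, inv_mul_cancel, cj_one]
  · rw [hf, hf', ← cj_mul, mul_inv_cancel, cj_one]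
  · simp only [Equiv.coe_fn_mk, ja_add, hf, cj_eq, map_add]
  · simp only [Equiv.coe_fn_mk, ja_smul, hf, cj_eq, map_smul]
  · rw [← ja_cub, ← ja_cub, Equiv.coe_fn_mk, hf, cub_cj h]

end rel

theorem ph_surj {F : Type} [Field F] [Algebra k F] (ρ : F ≃ₐ[k] F) (e : Fˣ) :
    Function.Surjective (P011.E6H.ph ρ e : AlbL F a b c → AlbL F a b c) := fun y => by
  have h : ∀ z : OctL F a b c, omap ρ (omap ρ.symm z) = z := fun z => by
    simp only [omap, qmap, AlgEquiv.apply_symm_apply]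
  refine ⟨⟨ρ.symm ((e⁻¹ : Fˣ) * y.d2), ρ.symm ((e⁻¹ : Fˣ) * y.d3), ρ.symm (e * y.d1),
    omap ρ.symm y.x2, omap ρ.symm y.x3, omap ρ.symm (((e⁻¹ : Fˣ) : F) • y.x1)⟩, ?_⟩
  simp [P011.E6H.ph, h, smul_smul]

theorem wt_eq_zero {F : Type} [Field F] {a b c : Fˣ} (w : Fin 3 → Fˣ) {z : Alb a b c}
    (h : Alb.wt w z = 0) : z = 0 := by
  have h1 := congrArg Alb.d1 h
  have h2 := congrArg Alb.d2 h
  have h3 := congrArg Alb.d3 h
  have h4 := congrArg Alb.x1 h
  have h5 := congrArg Alb.x2 h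
  have h6 := congrArg Alb.x3 h
  simp only [Alb.wt, Alb.d1_zero, Alb.d2_zero, Alb.d3_zero, Alb.x1_zero, Alb.x2_zero, Alb.x3_zero,
    mul_eq_zero, smul_eq_zero, Units.ne_zero, false_or, pow_eq_zero_iff two_ne_zero] at h1 h2 h3 h4 h5 h6
  exact Alb.ext h1 h2 h3 h4 h5 h6

theorem wt_sub {F : Type} [Field F] {a b c : Fˣ} (w : Fin 3 → Fˣ) (x y : Alb a b c) :
    Alb.wt w (x - y) = Alb.wt w x - Alb.wt w y := by
  ext1 <;> simp [Alb.wt, mul_sub, smul_sub]

section fld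

variable {Γ : Subgroup (K ≃ₐ[k] K)}

theorem fin_fld [IsGalois k K] (h : Op ⊤ fun σ => σ ∈ Γ) :
    FiniteDimensional k (IntermediateField.fixedField Γ) ∧
      (IntermediateField.fixedField Γ).fixingSubgroup = Γ := by
  obtain ⟨S, hS⟩ := h
  have h1 : (IntermediateField.adjoin k (S : Set K)).fixingSubgroup ≤ Γ := fun σ s =>
    hS σ trivial fun x hx => s ⟨x, IntermediateField.subset_adjoin k _ hx⟩
  have h2 : FiniteDimensional k (IntermediateField.adjoin k (S : Set K)) :=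
    IntermediateField.finiteDimensional_adjoin fun x _ => Algebra.IsIntegral.isIntegral x
  refine ⟨?_, InfiniteGalois.fixingSubgroup_fixedField ⟨Γ, Subgroup.isClosed_of_isOpen _
    (Subgroup.isOpen_mono h1 (IntermediateField.fixingSubgroup_isOpen _))⟩⟩
  have h3 : IntermediateField.fixedField Γ ≤ IntermediateField.adjoin k (S : Set K) :=
    fun x hx => fixed_sub _ fun σ s => hx ⟨σ, h1 s⟩
  exact Module.Finite.of_injective (IntermediateField.inclusion h3).toLinearMap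
    (IntermediateField.inclusion_injective h3)

theorem fix_eq : {x : AlbL K a b c | ∀ σ ∈ Γ, amap σ x = x} =
    Set.range (ja K : AlbL (IntermediateField.fixedField Γ) a b c → AlbL K a b c) := by
  ext x
  constructor
  · intro h
    refine ⟨crd.symm fun i => ⟨crd x i, fun σ => ?_⟩, crd.injective ?_⟩
    · have := congrFun (crd_amap K σ.1 x) i
      rw [h σ.1 σ.2] at this
      exact this.symm
    · rw [crd_ja, LinearEquiv.apply_symm_apply]
      rfl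
  · rintro ⟨y, rfl⟩ σ s
    refine crd.injective ?_
    rw [crd_amap, crd_ja]
    exact funext fun i => (crd y i).2 ⟨σ, s⟩

end fld

end Vale.Agent.P011LX
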