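import Vale.Agent.P011LE.IF
import Vale.Agent.P011LS.Inn
import Vale.Agent.P011LI.Ext
import Vale.Agent.P011LQ.Sub

/-!
The assembly of the outer case of type `E₆`.
-/

open Matrix
open scoped ComplexOrder

namespace Vale.Agent.P011LX

open Vale.Agent.P011L Vale.Agent.P011LD Vale.Agent.P011LE

/-- ISO2: descent of extremal elements along the quadratic extension. -/
def ISO2 : Prop :=
  ∀ (k K : Type) [Field k] [NumberField k] [Field K] [CharZero K] [Algebra k K] [IsAlgClosure k K]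
    (o : (K ≃ₐ[k] K) →* ℤˣ) (p : (K ≃ₐ[k] K) → GL I K),
    DD o p → (∃ s, o s ≠ 1) → ¬P011LE.Dfn o p → (∃ X, Ext X ∧ ∀ σ, o σ = 1 → FixL o p σ X) →
    ∃ X, Ext X ∧ ∀ σ, FixL o p σ X

/-- PAIR: a stable pair whose quaternion algebra is definite at the real places. -/
def PAIR : Prop :=
  ∀ (k K : Type) [Field k] [NumberField k] [Field K] [CharZero K] [Algebra k K] [IsAlgClosure k K]
    (o : (K ≃ₐ[k] K) →* ℤˣ) (p : (K ≃ₐ[k] K) → GL I K) (α : K) (s : K ≃ₐ[k] K),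
    DD o p → α ^ 2 = -1 → s α ≠ α → (∃ X, Ext X ∧ ∀ σ, σ α = α → FixL o p σ X) →
    ∃ m b g l, Sim m ∧ SP0 o (tw o m p) α b g l ∧ Re o (tw o m p) α b g

section tw

variable {k K : Type} [Field k] [Field K] [Algebra k K] {o : (K ≃ₐ[k] K) →* ℤˣ} {n n' : Type}
  [Fintype n] [DecidableEq n] [Fintype n'] [DecidableEq n'] {p : (K ≃ₐ[k] K) → GL n K}
  {d : (K ≃ₐ[k] K) → GL n' K}

theorem tw_tw (m m' : GL n K) : tw o m' (tw o m p) = tw o (m' * m) p := funext fun σ => by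
  simp only [tw, map_mul, _root_.mul_inv_rev, mul_assoc]

theorem tw_one : tw o 1 p = p := funext fun σ => by simp [tw]

theorem cmp_tw (m : GL n K) (h : Cmp o p d) : Cmp o (tw o m p) d := by
  refine ⟨fun σ τ => (h.mul σ τ).imp fun z e => ⟨?_, e.2⟩,
    (h.cont.and (Op.mat ⊤ m.1)).imp fun σ _ ⟨⟨e, c, e1, e2⟩, e3⟩ => ⟨e, c, ?_, e2⟩⟩
  · have : tw o m p σ * st o σ (tw o m p τ) =
        m * (p σ * st o σ (p τ)) * (st o (σ * τ) m)⁻¹ := by
      simp only [tw, map_mul, map_inv, P011LI.st_mul, mul_assoc, inv_mul_cancel_left]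
    rw [this, tw, Units.val_mul, Units.val_mul, e.1, mul_smul_comm, smul_mul_assoc]
    rfl
  · have : st o σ m = m := Units.ext ((P011LI.st_in o e m).trans e3)
    rw [tw, this, Units.val_mul, Units.val_mul, e1, mul_smul_comm, smul_mul_assoc, mul_one,
      Units.mul_inv]

theorem pd_tw (m : GL n K) (h : PD o p) : PD o (tw o m p) :=
  have h1 := cmp_tw m (d := p) ⟨fun σ τ => (h.mul σ τ).imp fun _ e => ⟨e, e⟩,
    h.cont.imp fun _ _ e => ⟨e.1, e.2.imp fun _ e => ⟨e, e⟩⟩⟩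
  ⟨fun σ τ => (h1.mul σ τ).imp fun _ e => e.1, h1.cont.imp fun _ _ e => ⟨e.1, e.2.imp fun _ e => e.1⟩⟩

theorem spl_tw (m : GL n K) (h : Spl o p) : Spl o (tw o m p) := by
  obtain ⟨v, v0, h⟩ := h
  refine ⟨m.1 *ᵥ v, fun e => v0 ?_, fun σ s => (h σ s).imp fun μ e => ?_⟩
  · rw [← one_mulVec v, ← Units.inv_mul m, ← mulVec_mulVec, e, mulVec_zero]
  · rw [P011LQ.map_mv, ← P011LI.st_in o s, mulVec_mulVec, ← Units.val_mul, tw,
      inv_mul_cancel_right, Units.val_mul, ← mulVec_mulVec, e, mulVec_smul]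

variable {p : (K ≃ₐ[k] K) → GL I K}

theorem dfn_tw (m : GL I K) (h : P011LE.Dfn o p) : P011LE.Dfn o (tw o m p) := by
  obtain ⟨w, κ, h1, h2, z, h⟩ := h
  refine ⟨w, κ, h1, h2, z, ?_⟩
  have e : (st o κ m)⁻¹.1.map w = (m.1.map w)ᴴ := by
    rw [← map_inv, P011LI.st_out o h2, inv_inv]
    exact Matrix.ext fun i j => h1 _
  rw [tw, Units.val_mul, Units.val_mul, Matrix.map_mul, Matrix.map_mul, e, ← smul_mul_assoc,
    ← mul_smul_comm]
  exact h.mul_mul_conjTranspose_same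
    (vecMul_injective_iff_isUnit.2 (GeneralLinearGroup.map w m).isUnit)

theorem sim_mul {g h : GL I K} (a : Sim g) (b : Sim h) : Sim (g * h) :=
  EU_mem.1 (map_mul EU g h ▸ mul_mem (EU_mem.2 a) (EU_mem.2 b))

theorem sim_inv {g : GL I K} (a : Sim g) : Sim g⁻¹ :=
  EU_mem.1 (map_inv EU g ▸ inv_mem (EU_mem.2 a))

theorem sim_st [IsAlgClosed K] [CharZero K] {g : GL I K} (a : Sim g) (σ : K ≃ₐ[k] K) :
    Sim (st o σ g) := by
  have h : Sim (GeneralLinearGroup.map (σ : K →+* K) g) := by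
    obtain ⟨ν, h0, h⟩ := a
    refine ⟨σ ν, (map_ne_zero σ).2 h0, fun x => ?_⟩
    obtain ⟨y, rfl⟩ : ∃ y, x = (σ : K →+* K) ∘ y :=
      ⟨σ.symm ∘ x, funext fun i => (σ.apply_symm_apply _).symm⟩
    refine (congrArg cub (P011LT.map_mulVec' (σ : K →+* K) g.1 y)).trans ?_
    rw [P011LT.cub_map, P011LT.cub_map, h, map_mul]
    rfl
  unfold st
  split_ifs
  · exact h
  · exact EU_mem.1 (by rw [MonoidHom.comp_apply, EU_it]; exact itR_mem (EU_mem.2 h))

theorem dd_tw [IsAlgClosed K] [CharZero K] {m : GL I K} (hm : Sim m) (h : DD o p) :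
    DD o (tw o m p) :=
  ⟨pd_tw m h.pd, fun σ => sim_mul (sim_mul hm (h.sim σ)) (sim_inv (sim_st hm σ))⟩

theorem mon_tw (m : GL I K) {π : (K ≃ₐ[k] K) →* Equiv.Perm (Fin 3)} {c : (K ≃ₐ[k] K) → Fin 3 → K}
    {d : (K ≃ₐ[k] K) → GL (Fin 3) K} (h : Mon o (tw o m p) π c d) : Mon o p π c d :=
  ⟨by simpa [tw_tw, tw_one] using cmp_tw m⁻¹ h.cmp, h.val, h.three, h.sc,
    h.cyc.imp id fun e => ⟨mt (spl_tw m) e.1, e.2⟩⟩

end tw

section res

variable {k K : Type} [Field k] [Field K] [Algebra k K] {o : (K ≃ₐ[k] K) →* ℤˣ}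
  {p : (K ≃ₐ[k] K) → GL I K}

/-- The inclusion of the Galois groups. -/
def rs (F : IntermediateField k K) : (K ≃ₐ[F] K) →* (K ≃ₐ[k] K) :=
  ⟨⟨fun τ => τ.restrictScalars k, rfl⟩, fun _ _ => rfl⟩

theorem dd_rs (F : IntermediateField k K) (h : DD o p) : DD (o.comp (rs F)) fun τ => p (rs F τ) :=
  ⟨⟨fun σ τ => h.pd.mul (rs F σ) (rs F τ),
    h.pd.cont.elim fun S hS => ⟨S, fun τ _ e => hS (rs F τ) trivial e⟩⟩, fun _ => h.sim _⟩

theorem fix_rs {F : IntermediateField k K} {X : Matrix I I K}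
    (h : ∀ τ, FixL (o.comp (rs F)) (fun τ => p (rs F τ)) τ X) {σ : K ≃ₐ[k] K}
    (e : ∀ x ∈ F, σ x = x) : FixL o p σ X :=
  h (AlgEquiv.ofRingEquiv (f := σ.toRingEquiv) fun x => e x.1 x.2)

end res

/-- Over a totally imaginary field there is a rational extremal element. -/
theorem tot (h1 : EXT1) (h2 : ISO2) (k K : Type) [Field k] [NumberField k] [Field K] [CharZero K]
    [Algebra k K] [IsAlgClosure k K] {o : (K ≃ₐ[k] K) →* ℤˣ} {p : (K ≃ₐ[k] K) → GL I K}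
    (h0 : IsEmpty (k →+* ℝ)) (h : DD o p) : ∃ X, Ext X ∧ ∀ σ, FixL o p σ X := by
  have := IsAlgClosure.isAlgClosed k (K := K)
  obtain ⟨F, f1, -, f2⟩ := P011LQ.exists_field (Γ := o.ker) (h.pd.cont.imp fun _ _ e => e.1)
  have := NumberField.of_module_finite k F
  have : IsAlgClosure F K := ⟨inferInstance, Algebra.IsAlgebraic.tower_top (K := k) F⟩
  have e : o.comp (rs F) = 1 := MonoidHom.ext fun τ => (f2 _).2 fun x hx => τ.commutes ⟨x, hx⟩
  obtain ⟨X, x1, x2⟩ := h1 F K _ ⟨fun φ => h0.elim (φ.comp (algebraMap k F))⟩ (e ▸ dd_rs F h)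
  have x3 : ∀ σ, o σ = 1 → FixL o p σ X := fun σ s => fix_rs (e ▸ x2) ((f2 σ).1 s)
  by_cases ho : ∃ s, o s ≠ 1
  · refine h2 k K o p h ho (fun ⟨w, κ, c, _⟩ => h0.elim
      (NumberField.ComplexEmbedding.IsReal.embedding (φ := w.comp (algebraMap k K)) ?_)) ⟨X, x1, x3⟩
    exact NumberField.ComplexEmbedding.isReal_iff.2 (RingHom.ext fun x =>
      (c _).symm.trans (congrArg w (κ.commutes x)))
  · exact ⟨X, x1, fun σ => x3 σ (not_not.1 fun e => ho ⟨σ, e⟩)⟩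

theorem oe (h1 : EXT1) (h2 : ISO2) (h3 : PAIR) (h4 : IND) (h5 : NFB) (h6 : BRG) (h7 : TOR)
    (h8 : P011LS.AE) : P011LS.OE := by
  intro k K _ _ _ _ _ T o p h hT ho ha
  have := IsAlgClosure.isAlgClosed k (K := K)
  have : CharZero K := charZero_of_injective_algebraMap (algebraMap k K).injective
  have n0 : ¬∃ X, Ext X ∧ ∀ σ, FixL o p σ X := fun ⟨X, x1, x2⟩ => h8 k K T o p h hT X x1 x2 ha
  obtain ⟨φ⟩ : Nonempty (k →+* ℝ) := not_isEmpty_iff.1 fun e => n0 (tot h1 h2 k K e h)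
  obtain ⟨w, s, c, -⟩ := P011LQ.exists_cj (K := K) φ
  obtain ⟨α, hα⟩ := IsAlgClosed.exists_pow_nat_eq (-1 : K) two_pos
  have a1 : ∀ {F : Type} [Field F] (ψ : F →+* ℝ) (x : F), x ^ 2 ≠ -1 := fun ψ x e => by
    have := congrArg ψ e
    rw [map_pow, map_neg, map_one] at this
    nlinarith [sq_nonneg (ψ x)]
  have a2 : s α ≠ α := fun e => by
    obtain ⟨t, ht⟩ := Complex.conj_eq_iff_real.1 ((c α).symm.trans (congrArg w e))
    have := congrArg w hα
    rw [map_pow, map_neg, map_one, ht] at this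
    exact a1 (RingHom.id ℝ) t (by exact_mod_cast this)
  let F := IntermediateField.adjoin k {α}
  have : FiniteDimensional k F :=
    IntermediateField.adjoin.finiteDimensional (Algebra.IsIntegral.isIntegral α)
  have := NumberField.of_module_finite k F
  have : IsAlgClosure F K := ⟨inferInstance, Algebra.IsAlgebraic.tower_top (K := k) F⟩
  obtain ⟨X, x1, x2⟩ := tot h1 h2 F K ⟨fun ψ => a1 ψ
    ⟨α, IntermediateField.mem_adjoin_simple_self k α⟩ (Subtype.ext hα)⟩ (dd_rs F h)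
  obtain ⟨m, b, g, l, m1, m2, m3⟩ := h3 k K o p α s h hα a2
    ⟨X, x1, fun σ e => fix_rs x2 fun x hx => P011LQ.fix_adjoin e ⟨x, hx⟩⟩
  have h' := dd_tw m1 h
  obtain ⟨π, c, d, d1, d2, d3, d4, d5⟩ := h4 k K o _ h'
  obtain ⟨c, d, γ, m', e1, e2, e3⟩ := h5 k K o _ π c d α b g l h' ho ⟨d1, d2, d3, d4, d5⟩ m2 m3
  have e4 : NF o p d α γ b (m' * m) := ⟨e2.al, e2.ga, e2.be, sim_mul e2.sim m1, fun σ =>
    (e2.eq σ).imp fun t e => by
      rw [← e]
      simp only [tw, map_mul, _root_.mul_inv_rev, mul_assoc]⟩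
  rcases h6 k K T o p π c d α γ b _ h hT ho (mon_tw m e1) e4 with e | e | ⟨e, rfl | e'⟩
  · exact absurd e n0
  · exact e
  · refine absurd ha (h7 k K T o p c d α γ b _ hT ho (mon_tw m e1) e4 fun w κ k1 k2 k3 => e ?_)
    simpa [tw_tw, tw_one] using dfn_tw m⁻¹ (e3 w κ k1 k2 k3)
  · exact absurd (h2 k K o p h ho e e') n0

end Vale.Agent.P011LX
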