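import Vale.Agent.P011L.IF
import Vale.Agent.P011LD.H90
import Vale.Agent.P011.E6H.Defs

/-!
The dictionary between twisted actions in normal form and the models of type `E₆`: the statements.
-/

open Matrix

namespace Vale.Agent.P011LX

open Vale.Agent.P011L Vale.Agent.P011LD Vale.Agent.P011.D4 Vale.Agent.P011.E6

variable {k K : Type} [Field k] [Field K] [Algebra k K] {a b c : kˣ}

/-- The element `g` in the coordinates `Θ`. -/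
def cj (Θ : (Fin 3 × Fin 3 × Fin 3 → K) ≃ₗ[K] AlbL K a b c) (g : SE K) (x : AlbL K a b c) :
    AlbL K a b c := Θ (g.1.1 *ᵥ Θ.symm x)

/-- In the coordinates `Θ` the open subgroup `Γ` acts on the coefficients. -/
structure Co (T : Tw k (SE K)) (Γ : Subgroup (K ≃ₐ[k] K))
    (Θ : (Fin 3 × Fin 3 × Fin 3 → K) ≃ₗ[K] AlbL K a b c) : Prop where
  normal : Γ.Normal
  op : Op ⊤ fun σ => σ ∈ Γ
  cub : ∃ μ : K, μ ≠ 0 ∧ ∀ x, Alb.cub (Θ x) = μ * cub x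
  gal : ∀ σ ∈ Γ, ∀ g x, cj Θ (T.a σ g) (amap σ x) = amap σ (cj Θ g x)

/-- The automorphism `ρ` has order three modulo `Γ` and acts through `ph`, where `e` is no norm. -/
structure CoP (T : Tw k (SE K)) (Γ : Subgroup (K ≃ₐ[k] K))
    (Θ : (Fin 3 × Fin 3 × Fin 3 → K) ≃ₗ[K] AlbL K a b c) (ρ : K ≃ₐ[k] K) (e : Kˣ) : Prop where
  ne : ρ ∉ Γ
  three : ρ ^ 3 ∈ Γ
  fix : ∀ σ ∈ Γ, σ e = e
  fixr : ρ e = e
  nnm : ∀ x : K, (∀ σ ∈ Γ, σ x = x) → x * ρ x * ρ (ρ x) ≠ e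
  ph : ∀ g x, cj Θ (T.a ρ g) (P011.E6H.ph ρ e x) = P011.E6H.ph ρ e (cj Θ g x)

/-- The automorphism `θ` has order two modulo `Γ` and acts through the hermitian form. -/
structure CoH (T : Tw k (SE K)) (Γ : Subgroup (K ≃ₐ[k] K))
    (Θ : (Fin 3 × Fin 3 × Fin 3 → K) ≃ₗ[K] AlbL K a b c) (θ : K ≃ₐ[k] K) (w : Fin 3 → Kˣ) :
    Prop where
  ne : θ ∉ Γ
  two : θ ^ 2 ∈ Γ
  fix : ∀ σ ∈ Γ, ∀ i, σ (w i) = w i
  fixs : ∀ i, θ (w i) = w i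
  her : ∀ g x y, P011.E6H.her θ w (cj Θ (T.a θ g) x) (cj Θ g y) = P011.E6H.her θ w x y

/-- The hermitian form is anisotropic on the fixed points of `Γ`. -/
def AniH (Γ : Subgroup (K ≃ₐ[k] K)) (θ : K ≃ₐ[k] K) (w : Fin 3 → Kˣ) (a b c : kˣ) : Prop :=
  ∀ x : AlbL K a b c, (∀ σ ∈ Γ, amap σ x = x) → P011.E6H.her θ w x x = 0 → x = 0

/-- The octonions over the fixed field of `Γ` form a division algebra. -/
def DivC (Γ : Subgroup (K ≃ₐ[k] K)) (a b c : kˣ) : Prop :=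
  ∀ x : OctL K a b c, (∀ σ ∈ Γ, omap σ x = x) → Oct.norm x = 0 → x = 0

/-- Model (3): outer groups with trivial Tits class. -/
def DICT3 : Prop :=
  ∀ (k K : Type) [Field k] [NumberField k] [Field K] [Algebra k K] [IsAlgClosure k K]
    (T : Tw k (SE K)) (Γ : Subgroup (K ≃ₐ[k] K)) (a b c : kˣ)
    (Θ : (Fin 3 × Fin 3 × Fin 3 → K) ≃ₗ[K] AlbL K a b c) (θ : K ≃ₐ[k] K) (w : Fin 3 → Kˣ),
    Co T Γ Θ → CoH T Γ Θ θ w → (∀ σ, σ ∈ Γ ∨ θ⁻¹ * σ ∈ Γ) → AniH Γ θ w a b c → PSimple T.fix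

/-- Model (4): inner groups. -/
def DICT4 : Prop :=
  ∀ (k K : Type) [Field k] [NumberField k] [Field K] [Algebra k K] [IsAlgClosure k K]
    (T : Tw k (SE K)) (Γ : Subgroup (K ≃ₐ[k] K)) (a b c : kˣ)
    (Θ : (Fin 3 × Fin 3 × Fin 3 → K) ≃ₗ[K] AlbL K a b c) (ρ : K ≃ₐ[k] K) (e : Kˣ),
    Co T Γ Θ → CoP T Γ Θ ρ e → (∀ σ, ∃ i : ℕ, (ρ ^ i)⁻¹ * σ ∈ Γ) → Oct.Division a b c →
    PSimple T.fix

/-- Model (5): outer groups with nontrivial Tits class. -/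
def DICT5 : Prop :=
  ∀ (k K : Type) [Field k] [NumberField k] [Field K] [Algebra k K] [IsAlgClosure k K]
    (T : Tw k (SE K)) (Γ : Subgroup (K ≃ₐ[k] K)) (a b c : kˣ)
    (Θ : (Fin 3 × Fin 3 × Fin 3 → K) ≃ₗ[K] AlbL K a b c) (ρ θ : K ≃ₐ[k] K) (e : Kˣ)
    (w : Fin 3 → Kˣ) (t : K),
    Co T Γ Θ → CoP T Γ Θ ρ e → CoH T Γ Θ θ w → (θ * ρ)⁻¹ * (ρ * θ) ∈ Γ →
    (∀ σ, ∃ i j : ℕ, (ρ ^ i * θ ^ j)⁻¹ * σ ∈ Γ) →
    (∀ σ ∈ Γ, σ t = t) → θ t = t → (w 1 : K) = t * ρ (w 0) → (w 2 : K) = t * ρ (w 1) →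
    (w 0 : K) = e * θ e * t * ρ (w 2) → Oct.Division a b c →
    (DivC Γ a b c ∨ AniH Γ θ w a b c) → PSimple T.fix

end Vale.Agent.P011LX
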