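import Vale.Agent.P011LX.ANF
import Vale.Agent.P011LE.NF

/-!
The bridge from the normal form in matrix coordinates to the normal form on hermitian matrices.
-/

namespace Vale.Agent.P011LX

open Vale.Agent.P011LE Vale.Agent.P011.E6

/-- ANFB: change of coordinates. -/
def ANFB : Prop :=
  ∀ (k K : Type) [Field k] [NumberField k] [Field K] [CharZero K] [Algebra k K] [IsAlgClosure k K]
    (o : (K ≃ₐ[k] K) →* ℤˣ) (p : (K ≃ₐ[k] K) → GL I K)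
    (π : (K ≃ₐ[k] K) →* Equiv.Perm (Fin 3)) (c : (K ≃ₐ[k] K) → Fin 3 → K)
    (d : (K ≃ₐ[k] K) → GL (Fin 3) K) (α γ : K) (b : Kˣ) (m : GL I K),
    P011LE.DD o p → (∃ s, o s ≠ 1) → Mon o p π c d → NF o p d α γ b m →
    ∃ (a' b' c' : kˣ) (Ψ : (I → K) ≃ₗ[K] AlbL K a' b' c') (s : K ≃ₐ[k] K) (g : Fin 3 → Kˣ),
      ANF o p π a' b' c' Ψ s g

theorem brg (h1 : ANFB) (h2 : DICT) : BRG := by
  intro k K _ _ _ _ _ _ T o p π c d α γ b m hD hT ho hM hN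
  obtain ⟨a', b', c', Ψ, s, g, hA⟩ := h1 k K o p π c d α γ b m hD ho hM hN
  obtain ⟨d1, d2, d3⟩ := h2 k K o p π a' b' c' Ψ s g hD.pd hA
  by_cases e1 : P011.D4.Oct.Division a' b' c'
  swap
  · exact Or.inl (d1 e1)
  by_cases e2 : P011LX.Dfn o p
  · exact Or.inr (Or.inl (d3 e1 (Or.inl e2) T hT))
  by_cases e3 : π = 1
  · exact Or.inr (Or.inr ⟨e2, Or.inl e3⟩)
  by_cases e4 : DivC (o.ker ⊓ π.ker) a' b' c'
  · exact Or.inr (Or.inl (d3 e1 (Or.inr ⟨e3, e4⟩) T hT))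
  · exact Or.inr (Or.inr ⟨e2, Or.inr (d2 e4)⟩)

end Vale.Agent.P011LX
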