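import Vale.Agent.P011LX.Rel
import Vale.Agent.P011ND.Top
import Vale.Agent.P011NF.Meet

/-!
The dictionary between twisted actions in normal form and the models of type `E₆`.
-/

open Matrix

namespace Vale.Agent.P011LX

open Vale.Agent.P011L Vale.Agent.P011LD Vale.Agent.P011.D4 Vale.Agent.P011.E6 Vale.Agent.P011.MPQ
open Vale.Agent.P011.E6H (IsNormMap GHer GPh)
open IntermediateField (fixedField)

variable {k K : Type} [Field k] [Field K] [Algebra k K] {a b c : kˣ}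
  {Θ : (Fin 3 × Fin 3 × Fin 3 → K) ≃ₗ[K] AlbL K a b c} {T : Tw k (SE K)}
  {Γ : Subgroup (K ≃ₐ[k] K)}

theorem amap_ja {σ : K ≃ₐ[k] K} (s : σ ∈ Γ) (x : AlbL (fixedField Γ) a b c) :
    amap σ (ja K x) = ja K x := (fix_eq.ge ⟨x, rfl⟩ :) σ s

theorem Co.fix (h : Co T Γ Θ) {g : SE K} {f : Equiv.Perm (AlbL (fixedField Γ) a b c)}
    (r : Rl Θ g f) {σ : K ≃ₐ[k] K} (s : σ ∈ Γ) : T.a σ g = g :=
  Rl.u2 (fun x => by rw [← amap_ja s x, h.gal σ s, r, amap_ja s]) r

theorem Co.ex (h : Co T Γ Θ) (g : T.fix) :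
    ∃ f : Equiv.Perm (AlbL (fixedField Γ) a b c), IsNormMap f ∧ Rl Θ g.1 f := by
  have e : ∀ g ∈ T.fix, ∀ x ∈ {x : AlbL K a b c | ∀ σ ∈ Γ, amap σ x = x},
      cj Θ g x ∈ {x : AlbL K a b c | ∀ σ ∈ Γ, amap σ x = x} := fun g hg x hx σ s => by
    rw [← h.gal σ s, hg σ, hx σ s]
  exact exists_rl' h.cub fix_eq (e _ g.2) (e _ (inv_mem g.2))

section

variable {F : Type} [Field F] [Algebra k F] [Algebra F K] [IsScalarTower k F K]
  {σ : F ≃ₐ[k] F} {σ' : K ≃ₐ[k] K} {g : SE K} {f : Equiv.Perm (AlbL F a b c)}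

omit [IsScalarTower k F K] in
theorem CoP.iff {e : Fˣ} {e' : Kˣ} (h : CoP T Γ Θ σ' e')
    (hσ : ∀ x, algebraMap F K (σ x) = σ' (algebraMap F K x)) (he : algebraMap F K e = e')
    (r : Rl Θ g f) :
    T.a σ' g = g ↔ ∀ x, f (P011.E6H.ph σ e x) = P011.E6H.ph σ e (f x) := by
  refine ⟨fun e x => ja_inj K ?_, fun e1 => Rl.u2 (fun x => ?_) r⟩
  · rw [← r, ja_ph K hσ he, ja_ph K hσ he, ← r, ← h.ph, e]
  · obtain ⟨x, rfl⟩ := ph_surj σ e x
    rw [e1, ja_ph K hσ he, ja_ph K hσ he, h.ph, r]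

theorem CoH.iff [NeZero (2 : K)] {w : Fin 3 → Fˣ} {w' : Fin 3 → Kˣ} (h : CoH T Γ Θ σ' w')
    (hσ : ∀ x, algebraMap F K (σ x) = σ' (algebraMap F K x))
    (hw : ∀ i, algebraMap F K (w i) = w' i) (r : Rl Θ g f) :
    T.a σ' g = g ↔ ∀ x y, P011.E6H.her σ w (f x) (f y) = P011.E6H.her σ w x y := by
  refine ⟨fun e x y => (algebraMap F K).injective ?_, fun e => Rl.u2 (fun x => ?_) r⟩
  · rw [← ja_her K hσ hw, ← ja_her K hσ hw, ← r, ← r, ← h.her g (ja K x), e]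
  · refine sub_eq_zero.1 (wt_eq_zero w' (Alb.eq_zero_of_tf fun z => ?_))
    let l : AlbL K a b c →ₗ[K] K :=
      ⟨⟨Alb.tf (Alb.wt w' (cj Θ (T.a σ' g) (ja K x) - ja K (f x))), Alb.tf_add_right _⟩,
        fun t y => Alb.tf_smul_right t _ y⟩
    have h0 : l = 0 := ja_ext K (F := F) fun y => by
      obtain ⟨y, rfl⟩ : ∃ y', amap σ (f y') = y := ⟨f.symm (amap σ.symm y), by
        rw [f.apply_symm_apply]
        exact crd.injective (by rw [crd_amap, crd_amap]; exact funext fun i => by simp)⟩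
      have h1 := h.her g (ja K x) (ja K y)
      rw [ja_her K hσ hw, ← e, ← ja_her K hσ hw, r] at h1
      change Alb.tf _ _ = 0
      rw [wt_sub, Alb.tf_sub_left, ja_amap K hσ]
      exact sub_eq_zero.2 h1
    exact DFunLike.congr_fun h0 z

end

theorem fix_pow {g : SE K} {σ : K ≃ₐ[k] K} (h : T.a σ g = g) (i : ℕ) : T.a (σ ^ i) g = g := by
  induction i with
  | zero => rw [pow_zero, map_one]; rfl
  | succ i ih => rw [pow_succ, map_mul, MulAut.mul_apply, h, ih]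

theorem fix_of {g : SE K} {σ τ : K ≃ₐ[k] K} (h : T.a τ g = g) (h' : T.a (τ⁻¹ * σ) g = g) :
    T.a σ g = g := by
  rw [← mul_inv_cancel_left τ σ, map_mul, MulAut.mul_apply, h', h]

/-- The isomorphism with a group of maps over the fixed field. -/
theorem Co.equiv [Infinite k] (h : Co T Γ Θ)
    (H : Subgroup (Equiv.Perm (AlbL (fixedField Γ) a b c))) (h1 : ∀ f ∈ H, IsNormMap ⇑f)
    (h2 : ∀ (g : SE K) (f : Equiv.Perm (AlbL (fixedField Γ) a b c)), IsNormMap f →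
      Rl Θ g f → (g ∈ T.fix ↔ f ∈ H)) :
    Nonempty (T.fix ≃* H) := by
  refine equiv_of_rel (fun g f => Rl Θ g.1 f.1) (fun _ _ _ _ => Rl.mul) (fun g => ?_) (fun f => ?_)
    (fun _ _ _ r r' => Subtype.ext (r.u1 r')) fun _ _ _ r r' => Subtype.ext (r.u2 r')
  · obtain ⟨f, f1, f2⟩ := h.ex g
    exact ⟨⟨f, (h2 _ _ f1 f2).1 g.2⟩, f2⟩
  · obtain ⟨g, hg⟩ := exists_rl h.cub (h1 _ f.2)
    exact ⟨⟨g, (h2 _ _ (h1 _ f.2) hg).2 f.2⟩, hg⟩

theorem Co.gal' [IsGalois k K] (h : Co T Γ Θ) : IsGalois k (fixedField Γ) :=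
  (InfiniteGalois.normal_iff_isGalois _).1 ((fin_fld h.op).2.symm ▸ h.normal)

theorem aut_res [IsGalois k K] [Normal k (fixedField Γ)] (op : Op ⊤ fun σ => σ ∈ Γ)
    {σ : K ≃ₐ[k] K} {n : ℕ} (h1 : σ ∉ Γ) (h2 : σ ^ n ∈ Γ) :
    P011.H900.Aut n (σ.restrictNormal (fixedField Γ)) := by
  refine ⟨fun x y => ⟨map_add _ x y, map_mul _ x y⟩, funext fun x => Subtype.ext ?_,
    fun e => h1 ?_⟩
  · have e : ∀ (m : ℕ) (x : fixedField Γ),
        ((σ.restrictNormal (fixedField Γ))^[m] x).1 = (σ ^ m) x.1 := by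
      intro m
      induction m with
      | zero => exact fun _ => rfl
      | succ m ih =>
        intro x
        rw [Function.iterate_succ_apply', pow_succ', AlgEquiv.mul_apply, ← ih]
        exact σ.restrictNormal_commutes (fixedField Γ) _
    exact (e n x).trans (x.2 ⟨_, h2⟩)
  · rw [← (fin_fld op).2]
    exact fun x => (σ.restrictNormal_commutes (fixedField Γ) x).symm.trans (congrArg Subtype.val (congrFun e x))

/-- A unit of the fixed field. -/
def un (e : Kˣ) (h : ∀ σ ∈ Γ, σ e = e) : (fixedField Γ)ˣ :=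
  Units.mk0 ⟨e, fun σ => h σ.1 σ.2⟩ fun e0 => e.ne_zero (congrArg Subtype.val e0)

theorem dvn {F : Type} [Field F] [Algebra k F] {l : List (F → F)}
    (hl : ∀ r ∈ l, ∃ ρ : F ≃ₐ[k] F, ⇑ρ = r) (hk : ∀ x : F, (∀ r ∈ l, r x = x) →
      ∃ y, algebraMap k F y = x) (h : Oct.Division a b c) :
    P011.H900.Dvn l l ((up F a : Fˣ) : F) ((up F b : Fˣ) : F) ((up F c : Fˣ) : F) := by
  refine ⟨fun r hr => ?_, fun x hx h0 => ?_⟩
  · obtain ⟨ρ, rfl⟩ := hl r hr
    exact ⟨ρ.commutes _, ρ.commutes _, ρ.commutes _⟩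
  · obtain ⟨⟨x1, x2, x3, x4⟩, x5, x6, x7, x8⟩ := x
    obtain ⟨y1, rfl⟩ := hk x1 fun r hr => congrArg (·.1.re) (hx r hr)
    obtain ⟨y2, rfl⟩ := hk x2 fun r hr => congrArg (·.1.imI) (hx r hr)
    obtain ⟨y3, rfl⟩ := hk x3 fun r hr => congrArg (·.1.imJ) (hx r hr)
    obtain ⟨y4, rfl⟩ := hk x4 fun r hr => congrArg (·.1.imK) (hx r hr)
    obtain ⟨y5, rfl⟩ := hk x5 fun r hr => congrArg (·.2.re) (hx r hr)
    obtain ⟨y6, rfl⟩ := hk x6 fun r hr => congrArg (·.2.imI) (hx r hr)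
    obtain ⟨y7, rfl⟩ := hk x7 fun r hr => congrArg (·.2.imJ) (hx r hr)
    obtain ⟨y8, rfl⟩ := hk x8 fun r hr => congrArg (·.2.imK) (hx r hr)
    have h1 := h ⟨⟨y1, y2, y3, y4⟩, ⟨y5, y6, y7, y8⟩⟩ ((algebraMap k F).injective (by
      rw [P011.H900.re_om_oc] at h0
      rw [map_zero, ← h0]
      simp [Oct.norm, nrd]))
    simp only [Oct.ext_iff, QuaternionAlgebra.ext_iff] at h1
    obtain ⟨⟨rfl, rfl, rfl, rfl⟩, rfl, rfl, rfl, rfl⟩ := h1
    simp only [Oct.fst_zero, Oct.snd_zero, QuaternionAlgebra.re_zero, QuaternionAlgebra.imI_zero,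
      QuaternionAlgebra.imJ_zero, QuaternionAlgebra.imK_zero, map_zero]
    rfl

theorem ani_res [Normal k (fixedField Γ)] {θ : K ≃ₐ[k] K} {w : Fin 3 → Kˣ}
    (hw : ∀ σ ∈ Γ, ∀ i, σ (w i) = w i) (h : AniH Γ θ w a b c)
    (x : P011.H900.Al ((up (fixedField Γ) a : _ˣ) : fixedField Γ) (up (fixedField Γ) b : _ˣ))
    (hx : P011.H900.her ((up (fixedField Γ) c : _ˣ) : fixedField Γ)
      (θ.restrictNormal (fixedField Γ)) (fun i => (un (w i) fun σ s => hw σ s i : _ˣ)) x x = 0) :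
    x = 0 := by
  rw [P011.H900.her_eq] at hx
  refine (P011.H900.aeL a b c).injective (ja_inj K ((h _ (fun σ s => amap_ja s _) ?_).trans
    (ja_zero K).symm))
  rw [ja_her K (θ.restrictNormal_commutes (fixedField Γ)) (w := fun i => un (w i) fun σ s => hw σ s i)
    fun _ => rfl, hx, map_zero]

theorem psimple {G G' : Type} [Group G] [Group G'] (e : Nonempty (G ≃* G'))
    (h : P011.NM.OnlyC G') : PSimple G :=
  e.elim fun e => P011LT.PSimple.congr e fun N h1 h2 => (h N h1).resolve_left h2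

theorem dict3 : DICT3 := by
  intro k K _ _ _ _ _ T Γ a b c Θ θ w h hH gen ha
  have : CharZero K := charZero_of_injective_algebraMap (algebraMap k K).injective
  have := h.gal'
  have := (fin_fld h.op).1
  have : NumberField (fixedField Γ) := NumberField.of_module_finite k _
  let w' : Fin 3 → (fixedField Γ)ˣ := fun i => un (w i) fun σ s => hH.fix σ s i
  obtain ⟨e⟩ := h.equiv (GHer (θ.restrictNormal _) w' a b c) (fun f hf => hf.1) fun g f f1 r => by
    have i := hH.iff (θ.restrictNormal_commutes (fixedField Γ)) (w := w') (fun _ => rfl) r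
    refine ⟨fun hg => ⟨f1, i.1 (hg θ)⟩, fun hf σ => ?_⟩
    exact (gen σ).elim (h.fix r) fun s => fix_of (i.2 hf.2) (h.fix r s)
  refine psimple ⟨e.trans (P011.H900.gEquiv (P011.H900.aeL a b c) _ _
    (P011.H900.her_iff _ w')).symm⟩ (P011NF.e1n (aut_res h.op hH.ne hH.two)
    ⟨AlgEquiv.commutes _ _, AlgEquiv.commutes _ _, AlgEquiv.commutes _ _⟩
    (fun i => Subtype.ext ((θ.restrictNormal_commutes (fixedField Γ) _).trans (hH.fixs i))) (ani_res hH.fix ha))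

theorem nnm_res [Normal k (fixedField Γ)] {ρ : K ≃ₐ[k] K} {e : Kˣ} (h : CoP T Γ Θ ρ e) :
    P011.H900.Nnm (ρ.restrictNormal (fixedField Γ)) (un e h.fix : _ˣ) := by
  refine ⟨Subtype.ext ((ρ.restrictNormal_commutes (fixedField Γ) _).trans h.fixr), fun x hx =>
    h.nnm x.1 (fun σ s => x.2 ⟨σ, s⟩) ?_⟩
  have := congrArg (algebraMap _ K) hx
  rw [map_mul, map_mul, ρ.restrictNormal_commutes, ρ.restrictNormal_commutes,
    ρ.restrictNormal_commutes] at this
  exact this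

theorem pow_fix {σ : K ≃ₐ[k] K} {x : K} (h : σ x = x) (i : ℕ) : (σ ^ i) x = x := by
  induction i with
  | zero => rfl
  | succ i ih => rw [pow_succ, AlgEquiv.mul_apply, h, ih]

theorem down [IsGalois k K] {x : fixedField Γ} (h : ∀ σ : K ≃ₐ[k] K, ∃ τ : K ≃ₐ[k] K,
    τ x.1 = x.1 ∧ τ⁻¹ * σ ∈ Γ) : ∃ y, algebraMap k _ y = x := by
  obtain ⟨y, hy⟩ := fixed_top (k := k) (c := x.1) fun σ => by
    obtain ⟨τ, h1, h2⟩ := h σ
    have h3 : (τ⁻¹ * σ) x.1 = x.1 := x.2 ⟨_, h2⟩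
    rw [← mul_inv_cancel_left τ σ, AlgEquiv.mul_apply, h3, h1]
  exact ⟨y, Subtype.ext hy⟩

theorem dict4 : DICT4 := by
  intro k K _ _ _ _ _ T Γ a b c Θ ρ e h hP gen hd
  have : CharZero K := charZero_of_injective_algebraMap (algebraMap k K).injective
  have := h.gal'
  have := (fin_fld h.op).1
  have : NumberField (fixedField Γ) := NumberField.of_module_finite k _
  obtain ⟨ε⟩ := h.equiv (GPh (ρ.restrictNormal _) (un e hP.fix) a b c) (fun f hf => hf.1)
    fun g f f1 r => by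
      have i := hP.iff (ρ.restrictNormal_commutes (fixedField Γ)) (e := un e hP.fix) rfl r
      refine ⟨fun hg => ⟨f1, i.1 (hg ρ)⟩, fun hf σ => ?_⟩
      exact (gen σ).elim fun n s => fix_of (fix_pow (i.2 hf.2) n) (h.fix r s)
  refine psimple ⟨ε.trans (P011.H900.gEquiv (P011.H900.aeL a b c) _ _
    (P011.H900.ph_iff _ _)).symm⟩ (P011.NE.e2m (aut_res h.op hP.ne hP.three)
    (dvn (by simp) (fun x hx => down fun σ => (gen σ).elim fun n s => ⟨_, pow_fix ?_ n, s⟩) hd)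
    (nnm_res hP))
  exact (ρ.restrictNormal_commutes (fixedField Γ) x).symm.trans (congrArg Subtype.val (hx _ (by simp)))

theorem dict5 : DICT5 := by
  intro k K _ _ _ _ _ T Γ a b c Θ ρ θ e w t h hP hH hc gen t1 t2 t3 t4 t5 hd ha
  have : CharZero K := charZero_of_injective_algebraMap (algebraMap k K).injective
  have := h.gal'
  have := (fin_fld h.op).1
  have : NumberField (fixedField Γ) := NumberField.of_module_finite k _
  let w' : Fin 3 → (fixedField Γ)ˣ := fun i => un (w i) fun σ s => hH.fix σ s i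
  have r1 := ρ.restrictNormal_commutes (fixedField Γ)
  have r2 := θ.restrictNormal_commutes (fixedField Γ)
  obtain ⟨ε⟩ := h.equiv (GHer (θ.restrictNormal _) w' a b c ⊓
      GPh (ρ.restrictNormal _) (un e hP.fix) a b c) (fun f hf => hf.1.1)
    fun g f f1 r => by
      have i := hP.iff r1 (e := un e hP.fix) rfl r
      have j := hH.iff r2 (w := w') (fun _ => rfl) r
      refine ⟨fun hg => ⟨⟨f1, j.1 (hg θ)⟩, f1, i.1 (hg ρ)⟩, fun hf σ => ?_⟩
      obtain ⟨n, m, s⟩ := gen σ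
      refine fix_of ?_ (h.fix r s)
      rw [map_mul, MulAut.mul_apply, fix_pow (j.2 hf.1.2), fix_pow (i.2 hf.2.2)]
  refine psimple ⟨ε.trans (P011.H900.gEquiv (P011.H900.aeL a b c) _ _
    (P011.H900.her_ph_iff _ _ w' _)).symm⟩ (P011ND.e3m (t := ⟨t, fun σ => t1 σ.1 σ.2⟩)
    (aut_res h.op hP.ne hP.three) (aut_res h.op hH.ne hH.two) (fun x => Subtype.ext ?_)
    (dvn (by simp) (fun x hx => down fun σ => ?_) hd) (nnm_res hP)
    ⟨fun i => Subtype.ext ((r2 _).trans (hH.fixs i)), Units.ne_zero _,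
      Subtype.ext ((r2 _).trans t2), (algebraMap _ K).injective ?_,
      (algebraMap _ K).injective ?_, (algebraMap _ K).injective ?_⟩
    (ha.imp (fun hC => ⟨by simp, fun x _ hx => ?_⟩) (ani_res hH.fix)))
  · have h3 : ((θ * ρ)⁻¹ * (ρ * θ)) x.1 = x.1 := x.2 ⟨_, hc⟩
    have h4 := congrArg (θ * ρ) h3
    rw [← AlgEquiv.mul_apply, mul_inv_cancel_left] at h4
    exact ((r1 _).trans (congrArg ρ (r2 x))).trans
      (h4.trans ((r2 _).trans (congrArg θ (r1 x))).symm)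
  · obtain ⟨n, m, s⟩ := gen σ
    have e1 : ρ x.1 = x.1 := (r1 x).symm.trans (congrArg Subtype.val (hx _ (by simp)))
    have e2 : θ x.1 = x.1 := (r2 x).symm.trans (congrArg Subtype.val (hx _ (by simp)))
    exact ⟨_, by rw [AlgEquiv.mul_apply, pow_fix e2, pow_fix e1], s⟩
  · rw [map_mul, r1]
    exact t3
  · rw [map_mul, r1]
    exact t4
  · rw [map_mul, map_mul, map_mul, r1, r2]
    exact t5
  · obtain ⟨x, rfl⟩ := (P011.H900.oe (up (fixedField Γ) a) (up (fixedField Γ) b)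
      (up (fixedField Γ) c)).surjective x
    have h5 : ja K (⟨0, 0, 0, x, 0, 0⟩ : AlbL (fixedField Γ) a b c) =
        ja K (0 : AlbL (fixedField Γ) a b c) := by
      have h6 := hC (jo K x) (fun σ s => congrArg Alb.x1 (amap_ja (Γ := Γ) s ⟨0, 0, 0, x, 0, 0⟩))
        (by rw [jo_norm, P011.H900.oe_norm, hx, map_zero])
      have h7 : jo K (0 : OctL (fixedField Γ) a b c) = 0 :=
        congrArg Alb.x1 (ja_zero (k := k) K (F := fixedField Γ) (a := a) (b := b) (c := c))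
      simp only [ja, h6, Alb.d1_zero, Alb.d2_zero, Alb.d3_zero, Alb.x1_zero, Alb.x2_zero,
        Alb.x3_zero, h7]
    rw [show x = 0 from congrArg Alb.x1 (ja_inj K h5)]
    rfl

end Vale.Agent.P011LX
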