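import Vale.Agent.P011LX.Ext
import Vale.Agent.P011LX.Main

/-!
The dictionary for descent data in normal form.
-/

open Matrix
open scoped ComplexOrder

namespace Vale.Agent.P011LX

open Vale.Agent.P011L Vale.Agent.P011LD Vale.Agent.P011LE Vale.Agent.P011.D4 Vale.Agent.P011.D4.Oct
  Vale.Agent.P011.E6

variable {k K : Type} [Field k] [Field K] [Algebra k K] {a b c : kˣ}

theorem map_inv_mul {n : Type} [Fintype n] [DecidableEq n] (σ : K ≃ₐ[k] K) (g : GL n K) :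
    g⁻¹.1.map σ * g.1.map σ = 1 := by
  rw [← Matrix.map_one σ (map_zero _) (map_one _), ← Units.inv_mul g]
  exact (Matrix.map_mul (f := (σ : K →+* K))).symm

theorem omap_omap (σ τ : K ≃ₐ[k] K) (z : OctL K a b c) : omap σ (omap τ z) = omap (σ * τ) z := rfl

theorem nrm_fix {Γ : Subgroup (K ≃ₐ[k] K)} (hn : Γ.Normal) (r : K ≃ₐ[k] K) {t : K}
    (h : ∀ σ ∈ Γ, σ t = t) : ∀ σ ∈ Γ, σ (r t) = r t := fun σ s => by
  simpa using congrArg r (h _ (hn.conj_mem' σ s r))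

/-- Isotropic vectors descend along cyclic extensions of degree three. -/
theorem desc3 [NeZero (2 : K)] {Γ : Subgroup (K ≃ₐ[k] K)} (hn : Γ.Normal) {r : K ≃ₐ[k] K}
    (h3 : r ^ 3 ∈ Γ) {θ : K} (hθ : ∀ σ ∈ Γ, σ θ = θ) (h0 : r θ ≠ θ) {x : OctL K a b c} (hx : x ≠ 0)
    (hN : norm x = 0) (hf : ∀ σ ∈ Γ, omap σ x = x) :
    ∃ z : OctL K a b c, z ≠ 0 ∧ norm z = 0 ∧ (∀ σ ∈ Γ, omap σ z = z) ∧ omap r z = z := by
  have h2 : (2 : K) ≠ 0 := NeZero.ne 2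
  rw [pow_succ, pow_two] at h3
  have k1 : ∀ z : OctL K a b c, (∀ σ ∈ Γ, omap σ z = z) → ∀ σ ∈ Γ, omap σ (omap r z) = omap r z :=
    fun z h σ s => by
      conv_rhs => rw [← h _ (hn.conj_mem' σ s r), omap_omap]
      rw [omap_omap, mul_assoc, mul_inv_cancel_left]
  have k2 : ∀ t : K, (∀ σ ∈ Γ, σ t = t) → r (r (r t)) = t := fun t h => h _ h3
  have k3 : omap r (omap r (omap r x)) = x := hf _ h3
  have n0 : bil x x = 0 := by rw [bil_self, hN, mul_zero]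
  have n1 : bil (omap r x) (omap r x) = 0 := by rw [omap_bil, n0, map_zero]
  have n2 : bil (omap r (omap r x)) (omap r (omap r x)) = 0 := by rw [omap_bil, n1, map_zero]
  obtain ⟨β, hβ⟩ : ∃ β, bil x (omap r x) = β := ⟨_, rfl⟩
  have b1 : bil (omap r x) (omap r (omap r x)) = r β := by rw [omap_bil, hβ]
  have b2 : bil x (omap r (omap r x)) = r (r β) := by rw [← b1, ← omap_bil, k3, bil_comm]
  have b3 : ∀ σ ∈ Γ, σ β = β := fun σ s => by rw [← hβ, ← omap_bil, hf σ s, k1 x hf σ s]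
  suffices h : ∃ l : K, (∀ σ ∈ Γ, σ l = l) ∧
      l • x + (r l • omap r x + r (r l) • omap r (omap r x)) ≠ 0 ∧
      l * r l * β + r l * r (r l) * r β + r (r l) * l * r (r β) = 0 by
    obtain ⟨l, l1, l2, l3⟩ := h
    refine ⟨_, l2, mul_left_cancel₀ h2 ?_, fun σ s => ?_, ?_⟩
    · simp only [← bil_self, bil_add_left, bil_add_right, bil_smul_left, bil_smul_right, n0, n1, n2,
        hβ, b1, b2, bil_comm (omap r x) x, bil_comm (omap r (omap r x)) x,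
        bil_comm (omap r (omap r x)) (omap r x)]
      linear_combination 2 * l3
    · simp only [omap_add, omap_smul, l1 σ s, nrm_fix hn r l1 σ s,
        nrm_fix hn r (nrm_fix hn r l1) σ s, hf σ s, k1 x hf σ s, k1 _ (k1 x hf) σ s]
    · simp only [omap_add, omap_smul, k2 l l1, k3]
      abel
  have t1 := nrm_fix hn r hθ
  have t2 := k2 θ hθ
  by_cases e : β = 0
  · by_contra hc
    push Not at hc
    have hc' := fun l h => not_not.1 (mt (hc l h) (by simp [e]))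
    have e0 := hc' 1 fun σ _ => map_one σ
    have e1 := hc' θ hθ
    have e2 := hc' (θ * θ) fun σ s => by rw [map_mul, hθ σ s]
    simp only [map_one, map_mul] at e0 e2
    have e3 : ((θ - r θ) * (θ - r (r θ))) • x = 0 := by
      linear_combination (norm := module) e2 - (r θ + r (r θ)) • e1 + (r θ * r (r θ)) • e0
    refine hx ((smul_eq_zero.1 e3).resolve_left (mul_ne_zero (sub_ne_zero.2 h0.symm)
      (sub_ne_zero.2 fun e4 => h0 ?_)))
    rw [e4, t2]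
    exact e4
  · have m0 : θ - r θ ≠ 0 := sub_ne_zero.2 h0.symm
    have m1 : r θ - r (r θ) ≠ 0 := by rwa [← map_sub, map_ne_zero]
    have m2 : r (r θ) - θ ≠ 0 := by rwa [← t2, ← map_sub, t2, map_ne_zero]
    have e1 : r β ≠ 0 := (map_ne_zero r).2 e
    have e2 : r (r β) ≠ 0 := (map_ne_zero r).2 e1
    refine ⟨r (β / (θ - r θ)), nrm_fix hn r fun σ s => by
      rw [map_div₀, map_sub, b3 σ s, hθ σ s, t1 σ s], fun e4 => ?_, ?_⟩
    · have e5 := congrArg (fun z => bil z z) (eq_neg_of_add_eq_zero_left e4)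
      simp only [bil_neg_left, bil_neg_right, bil_add_left, bil_add_right, bil_smul_left,
        bil_smul_right, n0, n1, n2, b1, bil_comm (omap r (omap r x)) (omap r x)] at e5
      have e6 : β / (θ - r θ) ≠ 0 := div_ne_zero e m0
      exact mul_ne_zero (mul_ne_zero h2 e1) (mul_ne_zero (a := r (r (β / (θ - r θ))))
        (b := r (r (r (β / (θ - r θ))))) (by simpa only [map_ne_zero] using e6)
        (by simpa only [map_ne_zero] using e6)) (by linear_combination -e5)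
    · simp only [map_div₀, map_sub, t2, k2 β b3]
      field_simp
      ring

variable {o : (K ≃ₐ[k] K) →* ℤˣ} {p : (K ≃ₐ[k] K) → GL I K}
  {π : (K ≃ₐ[k] K) →* Equiv.Perm (Fin 3)} {Ψ : (I → K) ≃ₗ[K] AlbL K a b c} {s σ : K ≃ₐ[k] K}
  {g : Fin 3 → Kˣ} {T : Tw k (SE K)}

theorem mem_ker {σ : K ≃ₐ[k] K} : σ ∈ o.ker ⊓ π.ker ↔ o σ = 1 ∧ π σ = 1 := Iff.rfl

theorem ANF.opn (hp : PD o p) (h : ANF o p π a b c Ψ s g) : Op ⊤ fun σ => σ ∈ o.ker ⊓ π.ker :=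
  (hp.cont.and h.op).imp fun _ _ e => ⟨e.1.1, e.2⟩

theorem rot_ne : finRotate 3 ≠ 1 := by decide

theorem ANF.ext2 [NeZero (2 : K)] [IsGalois k K] (hp : PD o p) (h : ANF o p π a b c Ψ s g)
    (hd : ¬DivC (o.ker ⊓ π.ker) a b c) : ∃ X, Ext X ∧ ∀ σ, o σ = 1 → FixL o p σ X := by
  simp only [DivC, not_forall] at hd
  obtain ⟨z, z1, z2, z3⟩ := hd
  obtain ⟨z, z3, z2, z1⟩ : ∃ z : OctL K a b c, z ≠ 0 ∧ norm z = 0 ∧
      ∀ σ ∈ {σ | o σ = 1}, omap σ z = z := by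
    rcases h.ph with rfl | ⟨-, r, -, -, r1, r2, -⟩
    · exact ⟨z, z3, z2, fun σ s => z1 σ ⟨s, rfl⟩⟩
    have r3 : r ∉ (IntermediateField.fixedField (o.ker ⊓ π.ker)).fixingSubgroup := by
      rw [(fin_fld (h.opn hp)).2]
      exact fun e => rot_ne (r2.symm.trans e.2)
    obtain ⟨θ, hθ⟩ := not_forall.1 r3
    obtain ⟨y, y1, y2, y3, y4⟩ := desc3 (Γ := o.ker ⊓ π.ker) inferInstance (r := r)
      (mem_ker.2 ⟨by rw [map_pow, r1, one_pow], by rw [map_pow, h.cyc]⟩)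
      (fun σ s => θ.2 ⟨σ, s⟩) hθ z3 z2 z1
    exact ⟨y, y1, y2, gen_in _ (fun σ τ _ e e' => by rw [← omap_omap, e', e]) h.cyc
      (fun σ s t => y3 σ ⟨s, t⟩) (Or.inr ⟨r, r1, r2, y4⟩)⟩
  obtain ⟨x, y, h1, h2⟩ := ex_np z3 z2 z1
  exact ⟨_, h1.ext h.cub, h.inner hp h2⟩

theorem co_in (hT : Rep T o p) (h1 : o σ = 1) {A : AlbL K a b c → AlbL K a b c}
    (h : ∃ μ : K, ∀ v, Ψ ((p σ).1 *ᵥ (σ ∘ v)) = μ • A (Ψ v)) (g : SE K) (x : AlbL K a b c) :
    cj Ψ (T.a σ g) (A x) = A (cj Ψ g x) := by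
  obtain ⟨μ, h⟩ := h
  have h0 : μ ≠ 0 := fun e => (p σ).ne_zero (mat_ext σ fun v => Ψ.injective (by
    rw [h, e, zero_smul, zero_mulVec, map_zero]))
  obtain ⟨v, rfl⟩ := Ψ.surjective x
  have h2 := congrArg Units.val (hT σ g)
  rw [Units.val_mul, Units.val_mul, st_in h1] at h2
  refine smul_right_injective _ h0 (?_ : μ • _ = μ • _)
  rw [cj_eq, ← map_smul, ← h, cjE_apply, cj, ← h, LinearEquiv.symm_apply_apply,
    LinearEquiv.symm_apply_apply, mulVec_mulVec, h2, map_mv, mulVec_mulVec]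

theorem ANF.co (hp : PD o p) (h : ANF o p π a b c Ψ s g) (hT : Rep T o p) :
    Co T (o.ker ⊓ π.ker) Ψ :=
  ⟨inferInstance, h.opn hp, h.cub, fun σ s => co_in hT s.1 (h.gal σ s.1 s.2)⟩

theorem ANF.coH (h : ANF o p π a b c Ψ s g) (hT : Rep T o p) : CoH T (o.ker ⊓ π.ker) Ψ s g := by
  refine ⟨fun e => h.out e.1, mem_ker.2 ⟨by rw [map_pow, Int.units_sq], by
    rw [map_pow, h.one, one_pow]⟩, fun σ s => h.fix σ s.2, h.fix s h.one, fun f x y => ?_⟩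
  obtain ⟨μ, -, hμ⟩ := h.her
  obtain ⟨u, rfl⟩ := Ψ.surjective x
  obtain ⟨v, rfl⟩ := Ψ.surjective y
  have h2 : (p s)⁻¹ * (T.a s f).1 = st o s f.1 * (p s)⁻¹ := by
    rw [inv_mul_eq_iff_eq_mul, ← mul_assoc, ← hT, mul_inv_cancel_right]
  have h3 := congrArg (fun x : GL I K => x.1ᵀ * f.1.1.map s) h2
  simp only [Units.val_mul, transpose_mul, st_out h.out, transpose_transpose, mul_assoc,
    map_inv_mul, mul_one] at h3
  rw [cj, cj, hμ, hμ, LinearEquiv.symm_apply_apply, LinearEquiv.symm_apply_apply, map_mv,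
    ← vecMul_transpose, ← dotProduct_mulVec, mulVec_mulVec, mulVec_mulVec, mul_assoc, h3]

theorem spl_mul (hp : PD o p) {v : I → K} (σ τ : K ≃ₐ[k] K) (h1 : o σ = 1)
    (h : ∃ μ : K, (p σ).1 *ᵥ (σ ∘ v) = μ • v) (h' : ∃ μ : K, (p τ).1 *ᵥ (τ ∘ v) = μ • v) :
    ∃ μ : K, (p (σ * τ)).1 *ᵥ ((σ * τ) ∘ v) = μ • v := by
  obtain ⟨z, hz⟩ := hp.mul σ τ
  obtain ⟨μ, h⟩ := h
  obtain ⟨ν, h'⟩ := h'
  have h0 := ne_of_smul hz
  have e : σ ∘ (ν • v) = σ ν • (σ ∘ v) := funext fun i => map_mul σ _ _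
  refine ⟨z⁻¹ * (σ ν * μ), ?_⟩
  rw [mul_smul, eq_inv_smul_iff₀ h0, ← smul_mulVec, ← hz, Units.val_mul, st_in h1, ← mulVec_mulVec,
    mul_smul, ← h, ← mulVec_smul, ← e, ← h', map_mv]
  rfl

theorem ANF.coP (hp : PD o p) (h : ANF o p π a b c Ψ s g) (hT : Rep T o p) (hs : ¬Spl o p)
    {r : K ≃ₐ[k] K} {e : Kˣ} (r1 : o r = 1) (r2 : π r = finRotate 3) (r3 : ∀ σ, o σ = 1 → σ e = e)
    (r4 : ∃ μ : K, ∀ x, Ψ ((p r).1 *ᵥ (r ∘ x)) = μ • P011.E6H.ph r e (Ψ x)) :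
    CoP T (o.ker ⊓ π.ker) Ψ r e := by
  refine ⟨fun e => rot_ne (r2.symm.trans e.2), mem_ker.2 ⟨by rw [map_pow, r1, one_pow], by
    rw [map_pow, h.cyc]⟩, fun σ s => r3 σ s.1, r3 r r1, fun x hx he => hs ?_, co_in hT r1 r4⟩
  have h0 := mul_ne_zero_iff.1 (he ▸ e.ne_zero)
  have h1 := mul_ne_zero_iff.1 h0.1
  obtain ⟨v, hv⟩ := Ψ.surjective ⟨1, e / x, e ^ 2 / (x * r x), 0, 0, 0⟩
  refine ⟨v, fun e0 => ?_, gen_in _ (spl_mul hp) h.cyc (fun σ s t => ?_) (Or.inr ⟨r, r1, r2, ?_⟩)⟩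
  · simpa [e0] using congrArg Alb.d1 hv
  · obtain ⟨μ, hμ⟩ := h.gal σ s t
    refine ⟨μ, Ψ.injective ?_⟩
    rw [hμ, map_smul, hv]
    simp [amap, r3 σ s, hx σ ⟨s, t⟩, nrm_fix inferInstance r hx σ ⟨s, t⟩]
  · obtain ⟨μ, hμ⟩ := r4
    refine ⟨μ * x, Ψ.injective ?_⟩
    rw [hμ, map_smul, hv, mul_smul]
    congr 1
    have := h0.2
    have := h1.1
    have := h1.2
    ext1 <;> simp [P011.E6H.ph, r3 r r1]
    all_goals field_simp
    linear_combination -he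

theorem ANF.ani (hp : PD o p) (h : ANF o p π a b c Ψ s g) (hd : Dfn o p) :
    AniH (o.ker ⊓ π.ker) s g a b c := by
  obtain ⟨w, κ, h1, h2, z, hz⟩ := hd
  intro x hx h0
  obtain ⟨u, rfl⟩ := Ψ.surjective x
  obtain ⟨μ, hμ, h3⟩ := h.her
  have k2 : κ * κ = 1 := AlgEquiv.ext fun t => w.injective (by
    rw [AlgEquiv.mul_apply, h1, h1, star_star, AlgEquiv.one_apply])
  have k3 : π κ = 1 := by rw [← h.cyc κ, pow_succ, pow_two, ← map_mul, k2, map_one, one_mul]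
  have k4 : π (s⁻¹ * κ) = 1 := by rw [map_mul, map_inv, h.one, k3, inv_mul_cancel]
  obtain ⟨γ, rfl⟩ : ∃ γ, κ = s * γ := ⟨s⁻¹ * κ, (mul_inv_cancel_left _ _).symm⟩
  have k5 := out_in h.out h2
  rw [inv_mul_cancel_left] at k4 k5
  obtain ⟨ν, hν⟩ := h.gal γ k5 k4
  have e1 : (p γ).1 *ᵥ (γ ∘ u) = ν • u := Ψ.injective (by rw [hν, hx γ ⟨k5, k4⟩, map_smul])
  obtain ⟨t, ht⟩ := hp.mul s γ
  have t0 := ne_of_smul ht
  rw [h3, mul_eq_zero, or_iff_right hμ, dotProduct_mulVec, vecMul_transpose] at h0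
  obtain ⟨y, hy⟩ : ∃ y, y = ((p γ).1.map s)ᵀ *ᵥ ((p s)⁻¹.1 *ᵥ u) := ⟨_, rfl⟩
  have m : ((p γ)⁻¹.1.map s)ᵀ * ((p γ).1.map s)ᵀ = 1 := by
    rw [← transpose_mul, mul_eq_one_comm.1 (map_inv_mul s _), transpose_one]
  have e2 : t • (p (s * γ)).1 *ᵥ y = u := by
    rw [← smul_mulVec, ← ht, Units.val_mul, st_out h.out, hy, mulVec_mulVec, mulVec_mulVec,
      mul_assoc (p s).1, m, mul_one, Units.mul_inv, one_mulVec]
  have e3 : y ⬝ᵥ ((s * γ) ∘ u) = 0 := by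
    have e : s ∘ (ν • u) = s ν • (s ∘ u) := funext fun i => map_mul s _ _
    rw [hy, mulVec_transpose, ← dotProduct_mulVec]
    erw [← map_mv s (p γ).1 (γ ∘ u)]
    rw [e1, e, dotProduct_smul, h0, smul_zero]
  have e4 : w ∘ y = 0 := by
    by_contra hc
    refine (hz.dotProduct_mulVec_pos hc).ne' ?_
    have e5 : star (w ∘ y) ⬝ᵥ (w ∘ u) = 0 := by
      have h1' : ∀ x, w (s (γ x)) = star (w x) := h1
      simpa [dotProduct, h1'] using congrArg (fun t => star (w t)) e3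
    have e6 : w ∘ u = w t • (p (s * γ)).1.map w *ᵥ (w ∘ y) := by
      rw [P011LT.map_mulVec', ← e2]
      exact funext fun i => map_mul w _ _
    rw [e6, dotProduct_smul, smul_eq_zero, or_iff_right ((map_ne_zero w).2 t0)] at e5
    rw [smul_mulVec, dotProduct_smul, e5, smul_zero]
  have e5 : y = 0 := funext fun i => w.injective ((congrFun e4 i).trans (map_zero w).symm)
  rw [← e2, e5, mulVec_zero, smul_zero, map_zero]

theorem dict : DICT := by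
  intro k K _ _ _ _ _ o p π a b c Ψ s g hp h
  have : CharZero K := charZero_of_injective_algebraMap (algebraMap k K).injective
  refine ⟨h.ext1 hp, h.ext2 hp, fun hd hc T hT => ?_⟩
  rcases h.ph with e | ⟨hs, r, e, t, r1, r2, r3, r4, t1, t2, t3, t4⟩
  · refine dict3 k K T _ a b c Ψ s g (h.co hp hT) (h.coH hT) (fun σ => ?_)
      (h.ani hp (hc.resolve_right fun e' => e'.1 e))
    subst e
    exact (em (o σ = 1)).imp (fun e => ⟨e, rfl⟩) fun e => ⟨out_in h.out e, rfl⟩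
  · refine dict5 k K T _ a b c Ψ r s e g t (h.co hp hT) (h.coP hp hT hs r1 r2 r3 r4) (h.coH hT)
      (mem_ker.2 ⟨by simp [r1], by simp [h.one]⟩) (fun σ => ?_) (fun σ s => t1 σ s.2) (t1 s h.one)
      t2 t3 t4 hd (hc.symm.imp And.right (h.ani hp))
    obtain ⟨i, hi⟩ : ∃ i : ℕ, π σ = finRotate 3 ^ i := by
      rcases perm3 _ (h.cyc σ) with e | e | e
      exacts [⟨0, e⟩, ⟨1, e⟩, ⟨2, e⟩]
    by_cases e : o σ = 1
    · exact ⟨i, 0, mem_ker.2 ⟨by simp [r1, e], by simp [r2, hi]⟩⟩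
    · exact ⟨i, 1, mem_ker.2 ⟨by simpa [r1] using out_in h.out e, by simp [r2, hi, h.one]⟩⟩

end Vale.Agent.P011LX
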