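import Vale.Agent.P011LX.Defs
import Vale.Agent.P011LE.Defs
import Mathlib.LinearAlgebra.Matrix.PosDef
import Mathlib.Analysis.Complex.Order

/-!
The normal form of the descent data in the outer case, and what the dictionary gives.
-/

open Matrix
open scoped ComplexOrder

namespace Vale.Agent.P011LX

open Vale.Agent.P011L Vale.Agent.P011LD Vale.Agent.P011LE Vale.Agent.P011.D4 Vale.Agent.P011.E6

variable {k K : Type} [Field k] [Field K] [Algebra k K]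

/-- The normal form on the hermitian matrices over the octonions `(a, b, c)`. -/
structure ANF (o : (K ≃ₐ[k] K) →* ℤˣ) (p : (K ≃ₐ[k] K) → GL I K)
    (π : (K ≃ₐ[k] K) →* Equiv.Perm (Fin 3)) (a b c : kˣ) (Ψ : (I → K) ≃ₗ[K] AlbL K a b c)
    (s : K ≃ₐ[k] K) (g : Fin 3 → Kˣ) : Prop where
  cub : ∃ μ : K, μ ≠ 0 ∧ ∀ x, Alb.cub (Ψ x) = μ * cub x
  op : Op ⊤ fun σ => π σ = 1
  cyc : ∀ σ, π σ ^ 3 = 1
  gal : ∀ σ, o σ = 1 → π σ = 1 → ∃ μ : K, ∀ x, Ψ ((p σ).1 *ᵥ (σ ∘ x)) = μ • amap σ (Ψ x)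
  out : o s ≠ 1
  one : π s = 1
  her : ∃ μ : K, μ ≠ 0 ∧ ∀ x y,
    P011.E6H.her s g (Ψ x) (Ψ y) = μ * (x ⬝ᵥ ((p s)⁻¹.1ᵀ *ᵥ (s ∘ y)))
  fix : ∀ σ, π σ = 1 → ∀ i, σ (g i) = g i
  ph : π = 1 ∨ ¬Spl o p ∧ ∃ (r : K ≃ₐ[k] K) (e : Kˣ) (t : K), o r = 1 ∧ π r = finRotate 3 ∧
    (∀ σ, o σ = 1 → σ e = e) ∧
    (∃ μ : K, ∀ x, Ψ ((p r).1 *ᵥ (r ∘ x)) = μ • P011.E6H.ph r e (Ψ x)) ∧
    (∀ σ, π σ = 1 → σ t = t) ∧ (g 1 : K) = t * r (g 0) ∧ (g 2 : K) = t * r (g 1) ∧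
    (g 0 : K) = e * s e * t * r (g 2)

/-- The invariant hermitian form is definite at some place. -/
def Dfn (o : (K ≃ₐ[k] K) →* ℤˣ) (p : (K ≃ₐ[k] K) → GL I K) : Prop :=
  ∃ (w : K →+* ℂ) (κ : K ≃ₐ[k] K), Cj w κ ∧ o κ ≠ 1 ∧ ∃ z : ℂ, (z • (p κ).1.map w).PosDef

/-- DICT: the three outputs of the normal form. -/
def DICT : Prop :=
  ∀ (k K : Type) [Field k] [NumberField k] [Field K] [Algebra k K] [IsAlgClosure k K]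
    (o : (K ≃ₐ[k] K) →* ℤˣ) (p : (K ≃ₐ[k] K) → GL I K) (π : (K ≃ₐ[k] K) →* Equiv.Perm (Fin 3))
    (a b c : kˣ) (Ψ : (I → K) ≃ₗ[K] AlbL K a b c) (s : K ≃ₐ[k] K) (g : Fin 3 → Kˣ),
    PD o p → ANF o p π a b c Ψ s g →
    (¬Oct.Division a b c → ∃ X, Ext X ∧ ∀ σ, FixL o p σ X) ∧
    (¬DivC (o.ker ⊓ π.ker) a b c → ∃ X, Ext X ∧ ∀ σ, o σ = 1 → FixL o p σ X) ∧
    (Oct.Division a b c → Dfn o p ∨ π ≠ 1 ∧ DivC (o.ker ⊓ π.ker) a b c →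
      ∀ T : Tw k (SE K), Rep T o p → PSimple T.fix)

end Vale.Agent.P011LX
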