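import Vale.Agent.P011LX.Der
import Vale.Agent.P011LX.ANF
import Vale.Agent.P011LS.IF

/-!
Rational extremal elements from isotropic octonions.
-/

open Matrix

namespace Vale.Agent.P011LX

open Vale.Agent.P011L Vale.Agent.P011LD Vale.Agent.P011LE Vale.Agent.P011.D4 Vale.Agent.P011.E6

variable {k K : Type} [Field k] [Field K] [Algebra k K] {o : (K ≃ₐ[k] K) →* ℤˣ}

section act

variable {n : Type} [Fintype n] [DecidableEq n] {p : (K ≃ₐ[k] K) → GL n K} {σ τ : K ≃ₐ[k] K}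

omit [DecidableEq n] in
theorem map_mv (σ : K ≃ₐ[k] K) (M : Matrix n n K) (v : n → K) :
    σ ∘ (M *ᵥ v) = M.map σ *ᵥ (σ ∘ v) := funext fun i => RingHom.map_mulVec (σ : K →+* K) M v i

theorem mat_ext (σ : K ≃ₐ[k] K) {A B : Matrix n n K} (h : ∀ v : n → K, A *ᵥ (σ ∘ v) = B *ᵥ (σ ∘ v)) :
    A = B := toLin'.injective (LinearMap.ext fun v => by
  have e : σ ∘ (σ.symm ∘ v) = v := funext fun i => σ.apply_symm_apply _
  simpa only [e, toLin'_apply] using h (σ.symm ∘ v))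

theorem st_in (h : o σ = 1) (g : GL n K) : (st o σ g).1 = g.1.map σ := by
  rw [st, if_pos h]
  rfl

theorem st_out (h : o σ ≠ 1) (g : GL n K) : (st o σ g).1 = (g⁻¹.1.map σ)ᵀ := by
  rw [st, if_neg h]
  rfl

/-- The action on the Lie algebra. -/
def act (o : (K ≃ₐ[k] K) →* ℤˣ) (σ : K ≃ₐ[k] K) (X : Matrix n n K) : Matrix n n K :=
  if o σ = 1 then X.map σ else -(X.map σ)ᵀ

omit [Fintype n] [DecidableEq n] in
theorem act_act (X : Matrix n n K) : act o σ (act o τ X) = act o (σ * τ) X := by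
  ext i j
  rcases Int.units_eq_one_or (o σ) with h | h <;> rcases Int.units_eq_one_or (o τ) with h' | h' <;>
    simp [act, h, h']

theorem act_st {X Y : Matrix n n K} {g : GL n K} (h : X * g.1 = g.1 * Y) :
    act o σ X * (st o σ g).1 = (st o σ g).1 * act o σ Y := by
  have m : ∀ A B : Matrix n n K, (A * B).map σ = A.map σ * B.map σ := fun A B =>
    Matrix.map_mul (f := (σ : K →+* K))
  by_cases e : o σ = 1
  · rw [act, act, if_pos e, if_pos e, st_in e, ← m, ← m, h]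
  · have h1 : g⁻¹.1 * X = Y * g⁻¹.1 := by
      rw [Units.inv_mul_eq_iff_eq_mul, ← mul_assoc, ← h, Units.mul_inv_cancel_right]
    rw [act, act, if_neg e, if_neg e, st_out e, neg_mul, mul_neg, ← transpose_mul, ← transpose_mul,
      ← m, ← m, h1]

theorem ne_of_smul [Nonempty n] {g : GL n K} {z : K} {M : Matrix n n K} (h : g.1 = z • M) :
    z ≠ 0 := fun e => g.ne_zero (by rw [h, e, zero_smul])

theorem fixL_mul [Nonempty n] (hp : PD o p) {X : Matrix n n K} (h : FixL o p σ X)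
    (h' : FixL o p τ X) : FixL o p (σ * τ) X := by
  obtain ⟨z, hz⟩ := hp.mul σ τ
  have h0 := ne_of_smul hz
  have h1 : X * (p σ).1 = (p σ).1 * act o σ X := h
  have h2 := act_st (o := o) (σ := σ) (show X * (p τ).1 = (p τ).1 * act o τ X from h')
  refine smul_right_injective _ h0 (?_ : z • (X * _) = z • (_ * act o (σ * τ) X))
  rw [← mul_smul_comm, ← smul_mul_assoc, ← hz, Units.val_mul, ← mul_assoc, h1, mul_assoc, h2,
    act_act, mul_assoc]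

end act

theorem perm3 : ∀ q : Equiv.Perm (Fin 3), q ^ 3 = 1 →
    q = 1 ∨ q = finRotate 3 ∨ q = finRotate 3 * finRotate 3 := by decide

/-- Generation of the group of the inner automorphisms. -/
theorem gen_in {π : (K ≃ₐ[k] K) →* Equiv.Perm (Fin 3)} (P : (K ≃ₐ[k] K) → Prop)
    (hm : ∀ σ τ, o σ = 1 → P σ → P τ → P (σ * τ)) (h3 : ∀ σ, π σ ^ 3 = 1)
    (h1 : ∀ σ, o σ = 1 → π σ = 1 → P σ) (hr : π = 1 ∨ ∃ r, o r = 1 ∧ π r = finRotate 3 ∧ P r)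
    (σ : K ≃ₐ[k] K) (h : o σ = 1) : P σ := by
  rcases hr with rfl | ⟨r, r1, r2, r3⟩
  · exact h1 σ h rfl
  rcases perm3 _ (h3 σ) with e | e | e
  · exact h1 σ h e
  · simpa using hm r _ r1 r3 (h1 (r⁻¹ * σ) (by simp [r1, h]) (by simp [r2, e]))
  · simpa using hm r _ r1 r3 (hm r _ r1 r3
      (h1 (r⁻¹ * (r⁻¹ * σ)) (by simp [r1, h]) (by simp [r2, e])))

theorem out_in {s σ : K ≃ₐ[k] K} (h : o s ≠ 1) (h' : o σ ≠ 1) : o (s⁻¹ * σ) = 1 := by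
  rw [map_mul, map_inv, (Int.units_eq_one_or _).resolve_left h,
    (Int.units_eq_one_or _).resolve_left h', inv_mul_cancel]

variable {p : (K ≃ₐ[k] K) → GL I K} {π : (K ≃ₐ[k] K) →* Equiv.Perm (Fin 3)} {a b c : kˣ}
  {Ψ : (I → K) ≃ₗ[K] AlbL K a b c} {x y : OctL K a b c} {σ : K ≃ₐ[k] K}

/-- The matrix of the derivation. -/
noncomputable def mx (Ψ : (I → K) ≃ₗ[K] AlbL K a b c) (x y : OctL K a b c) : Matrix I I K :=
  LinearMap.toMatrix' (Ψ.symm.toLinearMap ∘ₗ DA x y ∘ₗ Ψ.toLinearMap)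

theorem mx_mv (v : I → K) : Ψ (mx Ψ x y *ᵥ v) = DA x y (Ψ v) := by
  simp [mx, LinearMap.toMatrix'_mulVec]

theorem NP.ext [NeZero (2 : K)] (h : NP x y) 
    (hc : ∃ μ : K, μ ≠ 0 ∧ ∀ v, Alb.cub (Ψ v) = μ * P011L.cub v) : Ext (mx Ψ x y) := by
  obtain ⟨μ, h0, hc⟩ := hc
  refine ⟨fun e => ?_, mat_ext (1 : K ≃ₐ[k] K) fun v => Ψ.injective ?_,
    fun t v => mul_left_cancel₀ h0 ?_⟩
  · obtain ⟨v, hv⟩ := h.D_ne
    exact hv (by rw [← Ψ.apply_symm_apply v, ← mx_mv, e, zero_mulVec, map_zero])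
  · rw [← mulVec_mulVec, mx_mv, mx_mv, h.DD, zero_mulVec, map_zero]
  · rw [← hc, ← hc, map_add, map_smul, mx_mv, h.cub]

theorem fixL_in (h1 : o σ = 1) {A : AlbL K a b c → AlbL K a b c}
    (h : ∃ μ : K, ∀ v, Ψ ((p σ).1 *ᵥ (σ ∘ v)) = μ • A (Ψ v))
    (hA : ∀ v, DA x y (A v) = A (DA x y v)) : FixL o p σ (mx Ψ x y) := by
  obtain ⟨μ, h⟩ := h
  rw [FixL, if_pos h1]
  refine mat_ext σ fun v => Ψ.injective ?_
  rw [← mulVec_mulVec, ← mulVec_mulVec, ← map_mv, mx_mv, h, h, map_smul, hA, mx_mv]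

theorem fixL_out (h1 : o σ ≠ 1) {g : Fin 3 → Kˣ} (h : ∃ μ : K, μ ≠ 0 ∧ ∀ u v,
    P011.E6H.her σ g (Ψ u) (Ψ v) = μ * (u ⬝ᵥ ((p σ)⁻¹.1ᵀ *ᵥ (σ ∘ v))))
    (hf : omap σ x = x ∧ omap σ y = y) : FixL o p σ (mx Ψ x y) := by
  obtain ⟨μ, h0, h⟩ := h
  have e : (mx Ψ x y)ᵀ * (p σ)⁻¹.1ᵀ = -((p σ)⁻¹.1ᵀ * (mx Ψ x y).map σ) :=
    mat_ext σ fun v => (dotProduct_eq _ _ fun u => mul_left_cancel₀ h0 (by
      have e := DA_her hf g (Ψ u) (Ψ v)
      rw [← mx_mv, ← mx_mv, h, h, map_mv, mulVec_mulVec] at e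
      rw [dotProduct_comm _ u, dotProduct_comm _ u, ← mulVec_mulVec, dotProduct_mulVec,
        vecMul_transpose, e, neg_mulVec, dotProduct_neg, mul_neg]))
  have e' := congrArg transpose e
  rw [transpose_neg, transpose_mul, transpose_mul, transpose_transpose, transpose_transpose,
    Units.inv_mul_eq_iff_eq_mul] at e'
  rw [FixL, if_neg h1]
  conv_lhs => rw [e', mul_assoc, neg_mul, Units.inv_mul_cancel_right]

theorem fixL_inner (hp : PD o p) (h3 : ∀ σ, π σ ^ 3 = 1)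
    (h1 : ∀ σ, o σ = 1 → π σ = 1 → ∃ μ : K, ∀ v, Ψ ((p σ).1 *ᵥ (σ ∘ v)) = μ • amap σ (Ψ v))
    (hr : π = 1 ∨ ∃ (r : K ≃ₐ[k] K) (e : Kˣ), o r = 1 ∧ π r = finRotate 3 ∧
      ∃ μ : K, ∀ v, Ψ ((p r).1 *ᵥ (r ∘ v)) = μ • P011.E6H.ph r e (Ψ v))
    (hf : ∀ σ, o σ = 1 → omap σ x = x ∧ omap σ y = y) :
    ∀ σ, o σ = 1 → FixL o p σ (mx Ψ x y) :=
  gen_in _ (fun _ _ _ => fixL_mul hp) h3
    (fun σ s t => fixL_in s (h1 σ s t) (DA_amap (hf σ s)))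
    (hr.imp id fun ⟨r, e, r1, r2, r3⟩ => ⟨r, r1, r2, fixL_in r1 r3 (DA_ph (hf r r1) e)⟩)

theorem np_of_not_div [NeZero (2 : K)] (h : ¬Oct.Division a b c) :
    ∃ x y : OctL K a b c, NP x y ∧ ∀ σ : K ≃ₐ[k] K, omap σ x = x ∧ omap σ y = y := by
  obtain ⟨z, hz⟩ := not_forall.1 h
  obtain ⟨h1, h2⟩ := Classical.not_imp.1 hz
  obtain ⟨x, y, h3, h4⟩ := ex_np (S := Set.univ) (z := oup K z)
    (fun e => h2 (by simpa [Oct.ext_iff, QuaternionAlgebra.ext_iff, oup] using e))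
    (by rw [norm_oup, h1, map_zero]) fun σ _ => omap_oup σ z
  exact ⟨x, y, h3, fun σ => h4 σ trivial⟩

/-- The inner case: split octonions give a rational extremal element. -/
theorem inf_ext [NeZero (2 : K)] (hp : PD 1 p) (h : P011LS.INF p π a b c Ψ)
    (hd : ¬Oct.Division a b c) : ∃ X, Ext X ∧ ∀ σ, FixL 1 p σ X := by
  obtain ⟨x, y, h1, h2⟩ := np_of_not_div (K := K) hd
  exact ⟨_, h1.ext h.cub, fun σ => fixL_inner hp h.cyc (fun σ _ => h.gal σ)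
    (h.ph.imp id fun ⟨_, r, e, r1, _, r2⟩ => ⟨r, e, rfl, r1, r2⟩) (fun σ _ => h2 σ) σ rfl⟩

variable {s : K ≃ₐ[k] K} {g : Fin 3 → Kˣ}

theorem ANF.inner (hp : PD o p) (h : ANF o p π a b c Ψ s g)
    (hf : ∀ σ, o σ = 1 → omap σ x = x ∧ omap σ y = y) :
    ∀ σ, o σ = 1 → FixL o p σ (mx Ψ x y) :=
  fixL_inner hp h.cyc h.gal
    (h.ph.imp id fun ⟨_, r, e, _, r1, r2, _, r3, _⟩ => ⟨r, e, r1, r2, r3⟩) hf

theorem ANF.ext1 [NeZero (2 : K)] (hp : PD o p) (h : ANF o p π a b c Ψ s g)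
    (hd : ¬Oct.Division a b c) : ∃ X, Ext X ∧ ∀ σ, FixL o p σ X := by
  obtain ⟨x, y, h1, h2⟩ := np_of_not_div (K := K) hd
  have h3 := h.inner hp fun σ _ => h2 σ
  refine ⟨_, h1.ext h.cub, fun σ => by_cases (h3 σ) fun e => ?_⟩
  simpa using fixL_mul hp (fixL_out h.out h.her (h2 s)) (h3 _ (out_in h.out e))

end Vale.Agent.P011LX
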