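import Vale.Agent.P011LX.Defs
import Vale.Agent.P011LT.Basic
import Vale.Agent.P011.E6.Ids

/-!
Base change of the hermitian matrices over octonions.
-/

open Matrix

namespace Vale.Agent.P011LX

open Vale.Agent.P011L Vale.Agent.P011LD Vale.Agent.P011.D4 Vale.Agent.P011.E6 Vale.Agent.P011.MPQ

/-- A bijective multiplicative relation gives an isomorphism. -/
theorem equiv_of_rel {G H : Type} [Group G] [Group H] (R : G → H → Prop)
    (mul : ∀ g h g' h', R g h → R g' h' → R (g * g') (h * h')) (e1 : ∀ g, ∃ h, R g h)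
    (e2 : ∀ h, ∃ g, R g h) (u1 : ∀ g h h', R g h → R g h' → h = h')
    (u2 : ∀ g g' h, R g h → R g' h → g = g') : Nonempty (G ≃* H) := by
  choose f hf using e1
  refine ⟨MulEquiv.ofBijective (MonoidHom.mk' f fun g g' =>
    u1 _ _ _ (hf _) (mul _ _ _ _ (hf g) (hf g'))) ⟨fun g g' e => ?_, fun h => ?_⟩⟩
  · exact u2 _ _ _ (hf g) ((show f g = f g' from e) ▸ hf g')
  · obtain ⟨g, hg⟩ := e2 h
    exact ⟨g, u1 _ _ _ (hf g) hg⟩

section crd

variable {F : Type} [Field F] {a b c : Fˣ}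

/-- The coordinates. -/
def crd : Alb a b c ≃ₗ[F] (Fin 27 → F) where
  toFun x := ![x.d1, x.d2, x.d3,
    x.x1.fst.re, x.x1.fst.imI, x.x1.fst.imJ, x.x1.fst.imK,
    x.x1.snd.re, x.x1.snd.imI, x.x1.snd.imJ, x.x1.snd.imK,
    x.x2.fst.re, x.x2.fst.imI, x.x2.fst.imJ, x.x2.fst.imK,
    x.x2.snd.re, x.x2.snd.imI, x.x2.snd.imJ, x.x2.snd.imK,
    x.x3.fst.re, x.x3.fst.imI, x.x3.fst.imJ, x.x3.fst.imK,
    x.x3.snd.re, x.x3.snd.imI, x.x3.snd.imJ, x.x3.snd.imK]
  invFun v := ⟨v 0, v 1, v 2, ⟨⟨v 3, v 4, v 5, v 6⟩, ⟨v 7, v 8, v 9, v 10⟩⟩,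
    ⟨⟨v 11, v 12, v 13, v 14⟩, ⟨v 15, v 16, v 17, v 18⟩⟩,
    ⟨⟨v 19, v 20, v 21, v 22⟩, ⟨v 23, v 24, v 25, v 26⟩⟩⟩
  left_inv _ := rfl
  right_inv v := by
    funext i
    fin_cases i <;> rfl
  map_add' x y := by
    funext i
    fin_cases i <;> rfl
  map_smul' t x := by
    funext i
    fin_cases i <;> rfl

theorem lp_cub : LP (K := F) (Alb.cub : Alb a b c → F) := fun x y =>
  ⟨Polynomial.C (Alb.cub x) + Polynomial.C (Alb.tf (Alb.adj x) y) * Polynomial.X +
    Polynomial.C (Alb.tf x (Alb.adj y)) * Polynomial.X ^ 2 +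
    Polynomial.C (Alb.cub y) * Polynomial.X ^ 3, fun t => by
    rw [Alb.cub_add, Alb.cub_smul, Alb.adj_smul, Alb.tf_smul_right, Alb.tf_smul_right]
    simp only [Polynomial.eval_add, Polynomial.eval_mul, Polynomial.eval_C, Polynomial.eval_X,
      Polynomial.eval_pow]
    ring⟩

end crd

section up

variable {k F : Type} (K : Type) [Field k] [Field F] [Field K] [Algebra k F] [Algebra F K]
  [Algebra k K] [IsScalarTower k F K] {a b c : kˣ}

/-- The inclusion of the octonions. -/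
def jo (x : OctL F a b c) : OctL K a b c :=
  ⟨⟨algebraMap F K x.fst.re, algebraMap F K x.fst.imI, algebraMap F K x.fst.imJ,
    algebraMap F K x.fst.imK⟩, ⟨algebraMap F K x.snd.re, algebraMap F K x.snd.imI,
    algebraMap F K x.snd.imJ, algebraMap F K x.snd.imK⟩⟩

/-- The inclusion of the hermitian matrices. -/
def ja (x : AlbL F a b c) : AlbL K a b c :=
  ⟨algebraMap F K x.d1, algebraMap F K x.d2, algebraMap F K x.d3, jo K x.x1, jo K x.x2, jo K x.x3⟩

theorem up_up (a : kˣ) : algebraMap F K ((up F a : Fˣ) : F) = ((up K a : Kˣ) : K) :=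
  (IsScalarTower.algebraMap_apply k F K a).symm

omit [Algebra F K] in
theorem mul_aux (f : F →+* K) {a b c : Fˣ} {a' b' c' : Kˣ} (ha : f a = a') (hb : f b = b')
    (hc : f c = c') (x y : Oct a b c) :
    (⟨⟨f (x * y).fst.re, f (x * y).fst.imI, f (x * y).fst.imJ, f (x * y).fst.imK⟩,
      ⟨f (x * y).snd.re, f (x * y).snd.imI, f (x * y).snd.imJ, f (x * y).snd.imK⟩⟩ : Oct a' b' c') =
    ⟨⟨f x.fst.re, f x.fst.imI, f x.fst.imJ, f x.fst.imK⟩,
      ⟨f x.snd.re, f x.snd.imI, f x.snd.imJ, f x.snd.imK⟩⟩ *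
    ⟨⟨f y.fst.re, f y.fst.imI, f y.fst.imJ, f y.fst.imK⟩,
      ⟨f y.snd.re, f y.snd.imI, f y.snd.imJ, f y.snd.imK⟩⟩ := by
  apply Oct.ext8 <;> simp [ha, hb, hc]

theorem jo_mul (x y : OctL F a b c) : jo K (x * y) = jo K x * jo K y :=
  mul_aux K (algebraMap F K) (up_up K a) (up_up K b) (up_up K c) x y

theorem jo_norm (x : OctL F a b c) : Oct.norm (jo K x) = algebraMap F K (Oct.norm x) := by
  simp [jo, Oct.norm, nrd, ← IsScalarTower.algebraMap_apply]

theorem jo_bil (x y : OctL F a b c) :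
    Oct.bil (jo K x) (jo K y) = algebraMap F K (Oct.bil x y) := by
  simp [jo, Oct.bil_eq, ← IsScalarTower.algebraMap_apply, map_ofNat]

omit [IsScalarTower k F K] in
theorem jo_one : jo K (1 : OctL F a b c) = 1 := by
  apply Oct.ext8 <;> simp [jo]

omit [IsScalarTower k F K] in
theorem jo_smul (t : F) (x : OctL F a b c) : jo K (t • x) = algebraMap F K t • jo K x := by
  apply Oct.ext8 <;> exact map_mul (algebraMap F K) _ _

omit [IsScalarTower k F K] in
theorem crd_ja (x : AlbL F a b c) : crd (ja K x) = algebraMap F K ∘ crd x := by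
  funext i
  fin_cases i <;> rfl

omit [IsScalarTower k F K] in
theorem ja_inj : Function.Injective (ja K : AlbL F a b c → AlbL K a b c) := fun x y e => by
  have h := congrArg crd e
  rw [crd_ja, crd_ja] at h
  exact crd.injective (funext fun i => (algebraMap F K).injective (congrFun h i))

omit [IsScalarTower k F K] in
theorem ja_add (x y : AlbL F a b c) : ja K (x + y) = ja K x + ja K y := crd.injective (by
  rw [map_add, crd_ja, crd_ja, crd_ja, map_add]
  exact funext fun i => map_add (algebraMap F K) _ _)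

omit [IsScalarTower k F K] in
theorem ja_smul (t : F) (x : AlbL F a b c) : ja K (t • x) = algebraMap F K t • ja K x :=
  crd.injective (by
    rw [map_smul, crd_ja, crd_ja, map_smul]
    exact funext fun i => map_mul (algebraMap F K) _ _)

omit [IsScalarTower k F K] in
theorem ja_zero : ja K (0 : AlbL F a b c) = 0 := by
  have := ja_smul K (0 : F) (0 : AlbL F a b c)
  rwa [map_zero, zero_smul, zero_smul] at this

theorem ja_cub (x : AlbL F a b c) : Alb.cub (ja K x) = algebraMap F K (Alb.cub x) := by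
  simp only [Alb.cub, ja, jo_norm, ← jo_mul, map_add, map_sub, map_mul]
  rw [← jo_one K (F := F), jo_bil]

theorem ja_tf (x y : AlbL F a b c) : Alb.tf (ja K x) (ja K y) = algebraMap F K (Alb.tf x y) := by
  simp only [Alb.tf, ja, jo_bil, map_add, map_mul]

omit [IsScalarTower k F K] in
theorem ja_wt {w : Fin 3 → Fˣ} {w' : Fin 3 → Kˣ} (h : ∀ i, algebraMap F K (w i) = w' i)
    (x : AlbL F a b c) : ja K (Alb.wt w x) = Alb.wt w' (ja K x) := by
  simp only [Alb.wt, ja, jo_smul, map_mul, map_pow, h]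

variable {σ : F ≃ₐ[k] F} {σ' : K ≃ₐ[k] K}

omit [IsScalarTower k F K] in
theorem jo_omap (h : ∀ x, algebraMap F K (σ x) = σ' (algebraMap F K x)) (x : OctL F a b c) :
    jo K (omap σ x) = omap σ' (jo K x) := by
  simp only [jo, omap, qmap, h]

omit [IsScalarTower k F K] in
theorem ja_amap (h : ∀ x, algebraMap F K (σ x) = σ' (algebraMap F K x)) (x : AlbL F a b c) :
    ja K (amap σ x) = amap σ' (ja K x) := by
  simp only [ja, amap, jo_omap K h, h]

omit [IsScalarTower k F K] in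
theorem ja_ph (h : ∀ x, algebraMap F K (σ x) = σ' (algebraMap F K x)) {e : Fˣ} {e' : Kˣ}
    (he : algebraMap F K e = e') (x : AlbL F a b c) :
    ja K (P011.E6H.ph σ e x) = P011.E6H.ph σ' e' (ja K x) := by
  simp only [ja, P011.E6H.ph, jo_omap K h, h, jo_smul, map_mul, he, Units.val_inv_eq_inv_val,
    map_inv₀]

theorem ja_her (h : ∀ x, algebraMap F K (σ x) = σ' (algebraMap F K x)) {w : Fin 3 → Fˣ}
    {w' : Fin 3 → Kˣ} (hw : ∀ i, algebraMap F K (w i) = w' i) (x y : AlbL F a b c) :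
    P011.E6H.her σ' w' (ja K x) (ja K y) = algebraMap F K (P011.E6H.her σ w x y) := by
  rw [P011.E6H.her, P011.E6H.her, ← ja_tf, ja_wt K hw, ja_amap K h]

omit [IsScalarTower k F K] in
theorem crd_amap (σ' : K ≃ₐ[k] K) (x : AlbL K a b c) : crd (amap σ' x) = σ' ∘ crd x := by
  funext i
  fin_cases i <;> rfl

omit [IsScalarTower k F K] in
theorem ja_single (i : Fin 27) :
    ja K (crd.symm (Pi.single i 1) : AlbL F a b c) = crd.symm (Pi.single i 1) := by
  rw [LinearEquiv.eq_symm_apply, crd_ja, LinearEquiv.apply_symm_apply]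
  funext j
  by_cases h : j = i <;> simp [h]

omit [IsScalarTower k F K] in
theorem ja_span : Submodule.span K (Set.range (ja K : AlbL F a b c → AlbL K a b c)) = ⊤ := by
  refine eq_top_iff.2 fun x _ => ?_
  have h : x = ∑ i, crd x i • ja K (crd.symm (Pi.single i 1) : AlbL F a b c) := by
    simp only [ja_single, ← map_smul, ← map_sum]
    rw [LinearEquiv.eq_symm_apply]
    exact pi_eq_sum_univ' _
  rw [h]
  exact Submodule.sum_mem _ fun i _ => Submodule.smul_mem _ _ (Submodule.subset_span ⟨_, rfl⟩)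

omit [IsScalarTower k F K] in
theorem ja_ext {W : Type} [AddCommGroup W] [Module K W] {l l' : AlbL K a b c →ₗ[K] W}
    (h : ∀ x : AlbL F a b c, l (ja K x) = l' (ja K x)) : l = l' :=
  LinearMap.ext_on_range (ja_span K) h

theorem ja_dn : Dn k K (Set.range (ja K : AlbL F a b c → AlbL K a b c)) where
  zero := ⟨0, ja_zero K⟩
  add := by
    rintro _ ⟨x, rfl⟩ _ ⟨y, rfl⟩
    exact ⟨x + y, ja_add K x y⟩
  smul := by
    rintro t _ ⟨x, rfl⟩
    exact ⟨algebraMap k F t • x, by rw [ja_smul, ← IsScalarTower.algebraMap_apply]⟩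
  span := ja_span K

omit [IsScalarTower k F K] in
/-- The extension of a linear map. -/
theorem exists_ext (f : AlbL F a b c → AlbL F a b c) (h1 : ∀ x y, f (x + y) = f x + f y)
    (h2 : ∀ (t : F) x, f (t • x) = t • f x) :
    ∃ φ : AlbL K a b c →ₗ[K] AlbL K a b c, ∀ x, φ (ja K x) = ja K (f x) := by
  let l : AlbL F a b c →ₗ[F] AlbL F a b c := ⟨⟨f, h1⟩, h2⟩
  let j : AlbL F a b c →+ AlbL K a b c := AddMonoidHom.mk' (ja K) (ja_add K)
  refine ⟨(Fintype.linearCombination K fun i => ja K (f (crd.symm (Pi.single i 1)))).comp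
    crd.toLinearMap, fun x => ?_⟩
  have h : x = ∑ i, crd x i • (crd.symm (Pi.single i 1) : AlbL F a b c) := by
    simp only [← map_smul, ← map_sum]
    rw [LinearEquiv.eq_symm_apply]
    exact pi_eq_sum_univ' _
  have h3 : ja K (f x) = ∑ i, ja K (crd x i • f (crd.symm (Pi.single i 1))) := by
    have h4 := congrArg (fun y => j (l y)) h
    simp only [map_sum, map_smul] at h4
    exact h4
  rw [h3, LinearMap.comp_apply, LinearEquiv.coe_coe, Fintype.linearCombination_apply, crd_ja]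
  simp only [ja_smul, Function.comp_apply]

end up

end Vale.Agent.P011LX
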