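import Vale.Agent.P011.D4.Up
import Vale.Agent.P011.E6.Ids
import Vale.Agent.P011.E6H.Defs

/-!
Root elements of the automorphism group of isotropic octonions.
-/

namespace Vale.Agent.P011LX

open Vale.Agent.P011.D4 Vale.Agent.P011.D4.Oct Vale.Agent.P011.E6 Vale.Agent.P011.MPQ

section

variable {F : Type} [Field F] {a b c : Fˣ}

/-- A plane of pure octonions with zero product. -/
structure NP (x y : Oct a b c) : Prop where
  sx : star x = -x
  sy : star y = -y
  nx : norm x = 0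
  ny : norm y = 0
  mul : x * y = 0
  ne : y ≠ 0
  ex : ∃ u, bil u x ≠ 0 ∧ bil u y = 0

/-- The derivation. -/
def dl (x y z : Oct a b c) : Oct a b c := bil z x • y - bil z y • x

variable {x y : Oct a b c}

theorem dl_add (u v : Oct a b c) : dl x y (u + v) = dl x y u + dl x y v := by
  simp only [dl, bil_add_left]
  module

theorem dl_smul (t : F) (u : Oct a b c) : dl x y (t • u) = t • dl x y u := by
  simp only [dl, bil_smul_left]
  module

theorem dl_skew (u v : Oct a b c) : bil (dl x y u) v = -bil u (dl x y v) := by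
  simp only [dl, bil_sub_left, bil_sub_right, bil_smul_left, bil_smul_right, bil_comm v x,
    bil_comm v y]
  ring

theorem NP.mul' (h : NP x y) : y * x = 0 := by
  have := congrArg star h.mul
  rwa [star_mul, h.sx, h.sy, neg_mul_neg, star_zero] at this

theorem NP.xx (h : NP x y) : x * x = 0 := by
  have := mul_star_self x
  rwa [h.sx, h.nx, zero_smul, mul_neg, neg_eq_zero] at this

theorem NP.yy (h : NP x y) : y * y = 0 := by
  have := mul_star_self y
  rwa [h.sy, h.ny, zero_smul, mul_neg, neg_eq_zero] at this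

theorem NP.bxy (h : NP x y) : bil x y = 0 := by
  have := congrArg (fun z : Oct a b c => z.fst.re) (mul_star_add x y)
  simpa [h.sx, h.sy, h.mul, h.mul'] using this.symm

theorem NP.dd (h : NP x y) (u : Oct a b c) : dl x y (dl x y u) = 0 := by
  simp only [dl, bil_sub_left, bil_smul_left, bil_self, h.nx, h.ny, bil_comm y x, h.bxy]
  simp

theorem NP.dmul (h : NP x y) (u v : Oct a b c) : dl x y u * dl x y v = 0 := by
  simp only [dl, sub_mul, mul_sub, smul_mul_oct, mul_smul_oct, h.xx, h.yy, h.mul, h.mul',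
    smul_zero, sub_zero]

theorem NP.step (h : NP x y) (u v : Oct a b c) :
    x * (y * (u * v)) = dl x y u * v + u * (x * (y * v)) := by
  have h1 := mul_star_mul_add y v (star u)
  have h2 := mul_star_mul_add x (y * v) u
  rw [star_star, h.sy, neg_mul, mul_neg, ← bil_star_left, h.sy, bil_neg_left] at h1
  rw [h.sx, neg_mul, mul_neg] at h2
  rw [eq_sub_of_add_eq h1, mul_sub, mul_neg, eq_sub_of_add_eq h2, mul_smul_oct, dl, sub_mul,
    smul_mul_oct, smul_mul_oct, bil_comm u x, bil_comm u y]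
  module

theorem NP.eq (h : NP x y) (u : Oct a b c) : x * (y * u) = dl x y u := by
  simpa [h.mul] using h.step u 1

theorem NP.der (h : NP x y) (u v : Oct a b c) :
    dl x y (u * v) = dl x y u * v + u * dl x y v := by rw [← h.eq, h.step, h.eq]

theorem NP.al_mul (h : NP x y) (t : F) (u v : Oct a b c) :
    (u + t • dl x y u) * (v + t • dl x y v) = u * v + t • dl x y (u * v) := by
  simp only [add_mul, mul_add, smul_mul_oct, mul_smul_oct, h.dmul, h.der]
  module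

theorem NP.al_norm [NeZero (2 : F)] (h : NP x y) (t : F) (u : Oct a b c) :
    norm (u + t • dl x y u) = norm u := by
  have h2 : (2 : F) ≠ 0 := NeZero.ne 2
  have h3 : bil u (dl x y u) = 0 := by
    have := dl_skew (x := x) (y := y) u u
    rw [bil_comm] at this
    exact mul_left_cancel₀ h2 (by linear_combination this)
  have h4 : norm (dl x y u) = 0 := mul_left_cancel₀ h2 (by
    rw [← bil_self, dl_skew, h.dd, bil_zero_right, neg_zero, mul_zero])
  rw [Oct.norm_add, Oct.norm_smul, bil_smul_right, h3, h4]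
  ring

theorem NP.al_one [NeZero (2 : F)] (h : NP x y) (u : Oct a b c) : bil (dl x y u) 1 = 0 := by
  simp [dl, bil_sub_left, bil_smul_left, star_eq_neg_iff.1 h.sx, star_eq_neg_iff.1 h.sy]

/-- The derivation of the hermitian matrices. -/
def DA (x y : Oct a b c) : Alb a b c →ₗ[F] Alb a b c where
  toFun v := ⟨0, 0, 0, dl x y v.x1, dl x y v.x2, dl x y v.x3⟩
  map_add' u v := by ext1 <;> simp [dl_add]
  map_smul' t u := by ext1 <;> simp [dl_smul]

theorem DA_apply (v : Alb a b c) :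
    DA x y v = ⟨0, 0, 0, dl x y v.x1, dl x y v.x2, dl x y v.x3⟩ := rfl

theorem NP.DD (h : NP x y) (v : Alb a b c) : DA x y (DA x y v) = 0 := by
  simp only [DA_apply, h.dd]
  rfl

theorem NP.D_ne (h : NP x y) : ∃ v, DA x y v ≠ 0 := by
  obtain ⟨u, h1, h2⟩ := h.ex
  refine ⟨⟨0, 0, 0, u, 0, 0⟩, fun e => h.ne ?_⟩
  simpa [DA_apply, dl, h1, h2] using congrArg Alb.x1 e

theorem NP.cub [NeZero (2 : F)] (h : NP x y) (t : F) (v : Alb a b c) :
    Alb.cub (v + t • DA x y v) = Alb.cub v := by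
  simp only [Alb.cub, DA_apply, Alb.d1_add, Alb.d2_add, Alb.d3_add, Alb.x1_add, Alb.x2_add,
    Alb.x3_add, Alb.d1_smul, Alb.d2_smul, Alb.d3_smul, Alb.x1_smul, Alb.x2_smul, Alb.x3_smul,
    h.al_mul, h.al_norm, bil_add_left, bil_smul_left, h.al_one, mul_zero, add_zero]

theorem D_skew (w : Fin 3 → Fˣ) (u v : Alb a b c) :
    Alb.tf (Alb.wt w (DA x y u)) v = -Alb.tf (Alb.wt w u) (DA x y v) := by
  simp only [Alb.tf, Alb.wt, DA_apply, bil_smul_left, dl_skew]
  ring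

theorem np_pure [NeZero (2 : F)] {ν : Qt a b} (h0 : ν ≠ 0) (h1 : ν.re = 0) (h2 : nrd ν = 0) :
    NP (⟨ν, 0⟩ : Oct a b c) ⟨0, ν⟩ := by
  have h3 : (2 : F) ≠ 0 := NeZero.ne 2
  have h4 : nrd (0 : Qt a b) = 0 := by simp [nrd]
  refine ⟨?_, ?_, ?_, ?_, ?_, fun e => h0 (congrArg Oct.snd e), ?_⟩
  · apply ext8 <;> simp [h1]
  · apply ext8 <;> simp
  · simp [Oct.norm, h2, h4]
  · simp [Oct.norm, h2, h4]
  · rw [nrd, h1] at h2
    apply ext8 <;> simp [h1]
    · linear_combination -h2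
    all_goals ring
  · by_contra hc
    push Not at hc
    have e1 := hc ⟨⟨0, 1, 0, 0⟩, 0⟩
    have e2 := hc ⟨⟨0, 0, 1, 0⟩, 0⟩
    have e3 := hc ⟨⟨0, 0, 0, 1⟩, 0⟩
    simp [bil_eq, h3] at e1 e2 e3
    exact h0 (QuaternionAlgebra.ext h1 e1 e2 e3)

theorem np_gen [NeZero (2 : F)] {s : Qt a b} (h : c * nrd s = 1) :
    NP (⟨⟨0, 1, 0, 0⟩, -(s * ⟨0, 1, 0, 0⟩)⟩ : Oct a b c) ⟨⟨0, 0, 1, 0⟩, s * ⟨0, 0, 1, 0⟩⟩ := by
  have h3 : (2 : F) ≠ 0 := NeZero.ne 2
  rw [nrd] at h
  refine ⟨?_, ?_, ?_, ?_, ?_, fun e => ?_, ⟨⟨0, 1, 0, 0⟩, 0⟩, ?_, ?_⟩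
  · apply ext8 <;> simp
  · apply ext8 <;> simp
  · simp [Oct.norm, nrd]
    linear_combination (a : F) * h
  · simp [Oct.norm, nrd]
    linear_combination (b : F) * h
  · apply ext8 <;> simp
    all_goals first | ring1 | linear_combination -h
  · simpa using congrArg (fun z : Oct a b c => z.fst.imJ) e
  · simp [bil_eq, h3]
  · simp [bil_eq]

end

section

variable {k K : Type} [Field k] [Field K] [Algebra k K] {a b c : kˣ} {S : Set (K ≃ₐ[k] K)}

theorem qmap_ij (σ : K ≃ₐ[k] K) :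
    qmap σ (⟨0, 1, 0, 0⟩ : Qt (up K a) (up K b)) = ⟨0, 1, 0, 0⟩ ∧
      qmap σ (⟨0, 0, 1, 0⟩ : Qt (up K a) (up K b)) = ⟨0, 0, 1, 0⟩ := by
  constructor <;> simp only [qmap, map_zero, map_one]

theorem ex_pure [NeZero (2 : K)] {ν : Qt (up K a) (up K b)} (h0 : ν ≠ 0) (h2 : nrd ν = 0)
    (h : ∀ σ ∈ S, qmap σ ν = ν) :
    ∃ μ : Qt (up K a) (up K b), μ ≠ 0 ∧ μ.re = 0 ∧ nrd μ = 0 ∧ ∀ σ ∈ S, qmap σ μ = μ := by
  have h3 : (2 : K) ≠ 0 := NeZero.ne 2
  by_cases h1 : ν.re = 0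
  · exact ⟨ν, h0, h1, h2, h⟩
  have key : ∀ z : Qt (up K a) (up K b), (∀ σ, qmap σ z = z) →
      ν * z - ((ν * z).re / ν.re) • ν = 0 ∨ ∃ μ : Qt (up K a) (up K b), μ ≠ 0 ∧ μ.re = 0 ∧
        nrd μ = 0 ∧ ∀ σ ∈ S, qmap σ μ = μ := fun z hz => by
    refine or_iff_not_imp_left.2 fun e => ⟨_, e, ?_, ?_, fun σ s => ?_⟩
    · rw [QuaternionAlgebra.re_sub, QuaternionAlgebra.re_smul, smul_eq_mul, div_mul_cancel₀ _ h1,
        sub_self]
    · have h4 := Oct.norm_mul (⟨ν, 0⟩ : OctL K a b 1) ⟨z - ((ν * z).re / ν.re) • 1, 0⟩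
      have h5 : nrd (0 : Qt (up K a) (up K b)) = 0 := by simp [nrd]
      simpa [Oct.norm, h2, h5, mul_sub] using h4
    · have h6 : qmap σ (ν * z) = ν * z := by rw [qmap_mul, h σ s, hz]
      have h7 : σ (ν * z).re = (ν * z).re := congrArg (·.re) h6
      have h8 : σ ν.re = ν.re := congrArg (·.re) (h σ s)
      rw [qmap_sub, qmap_smul, h6, h σ s, map_div₀, h7, h8]
  refine (key ⟨0, 1, 0, 0⟩ fun σ => (qmap_ij σ).1).elim (fun e1 =>
    (key ⟨0, 0, 1, 0⟩ fun σ => (qmap_ij σ).2).resolve_left fun e2 => ?_) id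
  have a1 := congrArg (·.imI) e1
  have a2 := congrArg (·.imJ) e1
  have a3 := congrArg (·.imJ) e2
  have a4 := congrArg (·.imI) e2
  simp only [QuaternionAlgebra.imI_sub, QuaternionAlgebra.imJ_sub, QuaternionAlgebra.imI_smul,
    QuaternionAlgebra.imJ_smul, QuaternionAlgebra.imI_mul, QuaternionAlgebra.imJ_mul,
    QuaternionAlgebra.re_mul, smul_eq_mul, QuaternionAlgebra.imI_zero,
    QuaternionAlgebra.imJ_zero] at a1 a2 a3 a4
  have hA := (up K a).ne_zero
  have hB := (up K b).ne_zero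
  field_simp at a1 a2 a3 a4
  have a5 : ν.imI * ν.imJ = 0 := mul_left_cancel₀ (mul_ne_zero h3 (mul_ne_zero hA hB)) (by
    linear_combination (-(up K b : K)) * a2 - (up K a : K) * a4)
  exact h1 (pow_eq_zero_iff (n := 4) (by norm_num) |>.1 (by
    linear_combination (ν.re ^ 2) * a1 + ((up K a : K) * ν.imI ^ 2) * a3 +
      ((up K a : K) * (up K b : K) * ν.imI * ν.imJ) * a5))

/-- A plane with zero product which is fixed by the automorphisms in `S`. -/
theorem ex_np [NeZero (2 : K)] {z : OctL K a b c} (h0 : z ≠ 0) (h2 : norm z = 0)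
    (h : ∀ σ ∈ S, omap σ z = z) :
    ∃ x y : OctL K a b c, NP x y ∧ ∀ σ ∈ S, omap σ x = x ∧ omap σ y = y := by
  have h3 : ∀ σ ∈ S, qmap σ z.fst = z.fst := fun σ s => congrArg Oct.fst (h σ s)
  have h4 : ∀ σ ∈ S, qmap σ z.snd = z.snd := fun σ s => congrArg Oct.snd (h σ s)
  rw [Oct.norm, sub_eq_zero] at h2
  by_cases h1 : nrd z.fst = 0
  · have h5 : nrd z.snd = 0 := (mul_eq_zero.1 (h2.symm.trans h1)).resolve_left (Units.ne_zero _)
    obtain ⟨μ, m0, m1, m2, m3⟩ : ∃ μ : Qt (up K a) (up K b), μ ≠ 0 ∧ μ.re = 0 ∧ nrd μ = 0 ∧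
        ∀ σ ∈ S, qmap σ μ = μ := by
      by_cases h6 : z.fst = 0
      · exact ex_pure (fun e => h0 (Oct.ext h6 e)) h5 h4
      · exact ex_pure h6 h1 h3
    exact ⟨_, _, np_pure m0 m1 m2, fun σ s => by simp [omap, m3 σ s]⟩
  · have h5 : ∀ σ ∈ S, σ (nrd z.fst) = nrd z.fst := fun σ s => by
      conv_rhs => rw [← h3 σ s]
      simp [nrd, qmap]
    refine ⟨_, _, np_gen (s := (nrd z.fst)⁻¹ • (z.snd * z.fst)) ?_, fun σ s => ?_⟩
    · have h6 := Oct.norm_mul (⟨z.snd, 0⟩ : OctL K a b 1) ⟨z.fst, 0⟩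
      have h7 := Oct.norm_smul (nrd z.fst)⁻¹ (⟨z.snd * z.fst, 0⟩ : OctL K a b 1)
      have h8 : nrd (0 : Qt (up K a) (up K b)) = 0 := by simp [nrd]
      simp only [Oct.norm, fst_mul, snd_mul, star_zero, mul_zero, zero_mul, smul_zero, add_zero,
        h8, sub_zero, fst_smul, snd_smul] at h6 h7
      rw [h7, h6, ← mul_assoc, mul_comm _ (_ ^ 2), mul_assoc, ← mul_assoc _ (nrd z.snd), ← h2]
      field_simp
    · simp only [omap, qmap_neg, qmap_mul, qmap_smul, qmap_ij σ, h3 σ s, h4 σ s, map_inv₀, h5 σ s,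
        and_self]

theorem omap_bil (σ : K ≃ₐ[k] K) (u v : OctL K a b c) :
    bil (omap σ u) (omap σ v) = σ (bil u v) := by
  simp [bil_eq, omap, qmap, map_ofNat]

variable {σ : K ≃ₐ[k] K} {x y : OctL K a b c}

theorem dl_omap (h : omap σ x = x ∧ omap σ y = y) (u : OctL K a b c) :
    dl x y (omap σ u) = omap σ (dl x y u) := by
  rw [dl, dl, omap_sub, omap_smul, omap_smul, ← omap_bil, ← omap_bil, h.1, h.2]

theorem DA_amap (h : omap σ x = x ∧ omap σ y = y) (v : AlbL K a b c) :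
    DA x y (amap σ v) = amap σ (DA x y v) := by
  simp only [DA_apply, amap, dl_omap h, map_zero]

theorem DA_ph (h : omap σ x = x ∧ omap σ y = y) (e : Kˣ) (v : AlbL K a b c) :
    DA x y (P011.E6H.ph σ e v) = P011.E6H.ph σ e (DA x y v) := by
  simp only [DA_apply, P011.E6H.ph, dl_omap h, dl_smul, map_zero, mul_zero]

theorem DA_her (h : omap σ x = x ∧ omap σ y = y) (w : Fin 3 → Kˣ) (u v : AlbL K a b c) :
    P011.E6H.her σ w (DA x y u) v = -P011.E6H.her σ w u (DA x y v) := by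
  rw [P011.E6H.her, P011.E6H.her, D_skew, DA_amap h]

end

end Vale.Agent.P011LX
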